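import Claimed.Agent.R252.S9.Exit
import Claimed.Agent.R252.Glue.Top

/-!
# ROW 252 (S0492), unit TOP (owner helper40, prefix `kt_` / `Kt`), file 1: THE CHAIN.      No `sorry`: every hub is a `def .. : Prop`, the glue is PROVED.

    S0492  <-  glu_top  <-  GluKak4  <-  [KtHubRed = T2.17]  <-  no bad problem in version 2  <-  K9HubRates (P4.3; `S9/Exit.lean`, PROVED: `kp4_hub_rates9`)  <-  three regimes
        ell = 0        : kp_tangent (KpHubSam, KpHubUpgrade, KpHubBreadth)  +  KtHubIso (T6.1; Secs 5, 6, 6a)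
        0 < ell < oo   : kp_tangent  +  KtHubFin (Secs 7, 8; uses "no bad problem in version 1" = C6.x through T7.1)
        ell = oo       : K9Exit (P9.1, `S9/Exit.lean`; its first hypothesis is "no bad problem in version 1", used through T7.1)
    version 1 comes first: KbBad one  ->  KpCrit one (ell = 0)  ->  kp_tangent  +  KtHubIso  ->  False.

OWNERS OF THE HUBS (each proves `theorem .. : KtHub..` resp. `KpHub..` in his own folder; `Top/Final.lean` imports the eight proofs):
  KtHubRed  helper264 + helper123 (= `kb_reduction`)      K9HubRates  helper128 (done)      KpHubSam  helper127 + helper294 + helper269      KpHubUpgrade  helper230 + helper222 (integrator helper221)      KpHubBreadth  helper127 (`k4f_hub`)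
  KtHubIso  helper234 + helper295 (integrator helper74)   KtHubFin  helper26 + helper95 + helper182 (integrator helper220)                  K9Exit  helper233 + helper66
ORDER OF CONSTANTS: `S, η` (T2.17) | `p = (d_*, k, ell, S)` (P4.3) | the guarded diagonal `R, X` (Sec 4.2-4.3) | a substantial residual `Rs` | depth range, gain bounds, ONE subpower slack `K` of the candidate.
The consumers (Secs 6-8) see ONLY `KpSeqOk R X p` (+ `KpBreadth X` if `ell = 0`) and must produce `KpCandHyp R X p`; they never see the original resolution `N₀`.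
-/

set_option autoImplicit false

namespace Claimed.Agent.R252

/-- **T2.17** (owner S2b): failure of the discretised Kakeya statement gives a bad problem in version 2 -/
def KtHubRed : Prop :=
  ∀ σ C : ℝ, 0 < σ → (∀ k0 : ℕ, ∃ k, k0 ≤ k ∧ GluBad σ C k) → ∃ d S η : ℝ, 0 < S ∧ 0 < η ∧ KbBad KbVer.two S η d

/-- no bad problem in the version `v` -/
def KtNoBad (v : KbVer) : Prop := ∀ S η d : ℝ, 0 < S → 0 < η → ¬ KbBad v S η d

/-- **T6.1 isotropic improvement** (Secs 5, 6, 6a): version 1, or version 2 with `ell = 0` -/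
def KtHubIso : Prop :=
  ∀ (v : KbVer) (p : KpPrm) (R : KbRes) (X : ℕ → KpTan v), p.Ok → p.ell = 0 → KpSeqOk R X p → KpBreadth X → KpCandHyp R X p

/-- **finite positive narrowness** (Secs 7, 8) -/
def KtHubFin : Prop :=
  KtNoBad KbVer.one → ∀ (p : KpPrm) (R : KbRes) (X : ℕ → KpTan KbVer.two), p.Ok → 0 < p.ell → KpSeqOk R X p → KpCandHyp R X p

/-- C6.x: zero horizon in the scalar model -/
theorem kt_no_bad_one (hR : K9HubRates) (hS : KpHubSam) (hU : KpHubUpgrade) (hB : KpHubBreadth) (hI : KtHubIso) : KtNoBad KbVer.one := by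
  intro S η d h0 h1 hbad
  obtain ⟨p, hp, hpS, hell, hc⟩ := hR KbVer.one S η d h0 h1 hbad
  have hc' : KpCrit KbVer.one S η p := by
    rcases hc with hc | hc
    · exact hc
    · exact absurd hc.1 (by decide)
  obtain ⟨R, X, hX, hbr, hno⟩ := kp_tangent hS hU hB KbVer.one S η p h1 hp hpS hell hc'
  exact hno (hI KbVer.one p R X hp (hell rfl) hX (hbr (hell rfl)))

/-- no bad problem in version 2 -/
theorem kt_no_bad_two (hR : K9HubRates) (hS : KpHubSam) (hU : KpHubUpgrade) (hB : KpHubBreadth) (hI : KtHubIso) (hF : KtHubFin) (h9 : K9Exit) :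
    KtNoBad KbVer.two := by
  intro S η d h0 h1 hbad
  have h1' := kt_no_bad_one hR hS hU hB hI
  obtain ⟨p, hp, hpS, hell, hc⟩ := hR KbVer.two S η d h0 h1 hbad
  rcases hc with hc | hc
  · obtain ⟨R, X, hX, hbr, hno⟩ := kp_tangent hS hU hB KbVer.two S η p h1 hp hpS hell hc
    rcases hp.ell_nonneg.eq_or_lt with he | he
    · exact hno (hI KbVer.two p R X hp he.symm hX (hbr he.symm))
    · exact hno (hF h1' p R X hp he hX)
  · exact h9 h1' S η d h0 h1 hbad hc.2

/-- the discretised Kakeya statement -/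
theorem kt_kak4 (hRed : KtHubRed) (hR : K9HubRates) (hS : KpHubSam) (hU : KpHubUpgrade) (hB : KpHubBreadth) (hI : KtHubIso) (hF : KtHubFin)
    (h9 : K9Exit) : GluKak4 := by
  intro σ C hσ
  by_contra hcon
  push Not at hcon
  obtain ⟨d, S, η, h0, h1, hbad⟩ := hRed σ C hσ hcon
  exact kt_no_bad_two hR hS hU hB hI hF h9 S η d h0 h1 hbad

/-- **the frozen statement S0492 from the eight hubs** -/
theorem kt_main (hRed : KtHubRed) (hR : K9HubRates) (hS : KpHubSam) (hU : KpHubUpgrade) (hB : KpHubBreadth) (hI : KtHubIso) (hF : KtHubFin)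
    (h9 : K9Exit) (K : Set (EuclideanSpace ℝ (Fin 4)))
    (hK : ∀ e : EuclideanSpace ℝ (Fin 4), ‖e‖ = 1 → ∃ a : EuclideanSpace ℝ (Fin 4), ∀ t ∈ Set.Icc (0 : ℝ) 1, a + t • e ∈ K) :
    dimH K = 4 :=
  glu_top (kt_kak4 hRed hR hS hU hB hI hF h9) K hK

end Claimed.Agent.R252
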