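import Claimed.Agent.R252.Top.Chain
import Claimed.Agent.R252.State.KsSeq
import Claimed.Agent.R252.State.KsExit
import Claimed.Agent.R252.S7a.ProjDefs
import Claimed.Agent.R252.S7b.Exit

/-!
# ROW 252 (S0492), unit TOP, file `Fin` (integrator helper220; core shapes helper128; prefix `ktf_` / `Ktf`): THE SEQUENCE-LEVEL ASSEMBLY OF SECS 7 + 8.      No `sorry` in this file: hubs are `def .. : Prop`, the glue is PROVED.

EXIT: `KsSeqTilt p` (State/KsSeq, helper128), hence `KtHubFin` (Top/Chain).      Ruling 29518 (captain): one-scale cores without dichotomies; all dichotomies at sequence level, here.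
## The language (Sec. 1)
* `KtfPred`            a one-scale predicate `Φ R A E K` of (record, parent, selection, slack).  ALL further data (layers, `β`, fits, `λ`, charts ..) are existentially quantified INSIDE `Φ`.
* `KtfSt Φ R A E`      STATE of the sequence: `∀ τ > 0, ∀ᶠ n, ∃ E' ⊆ E n, KsCur (R n) E' (N^τ) ∧ Φ (R n) (A n) E' (N^τ)`.      NO sequence of data is ever selected, no `ulim`, no diagonal.
* `KtfCore p Φ Ψ`      ONE-SCALE CORE: `∀ τ_out ∃ G τ_in N₁ ∀ R A E, K7In p G τ_in N₁ R A E → Φ R A E (N^τ_in) → ∃ E' ⊆ E, KsCur R E' (N^τ_out) ∧ Ψ R A E' (N^τ_out)`.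
* `ktf_core_seq`       a core acts on states: `∃ EE countable, ∀ rich sequences, KtfSt Φ → KtfSt Ψ`   (`EE` = union of the lists `G` at `τ_out = 1/(m+1)`; needs `KtfMono Ψ`).
* `ktf_EE_iUnion`      COUNTABLE families of cores share one rich set.   So (trap W1) the PARAMETERS of a core with lists range over a countable index set; real exponents of the sequence enter through WINDOWS / thresholds `1/(j+1)`.
* `ktf_not_st`         THE DICHOTOMY: `by_cases KtfSt Φ`; if it fails, then for some `j`, eventually NO dense part carries `Φ` with slack `N^{1/(j+1)}`.      "`x = 0`" := `KtfSt (Φ ∧ quantity ≥ 1/K)`;  "`x > 0`" := its failure.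
* `ktf_uf_list`, `ktf_pigeon`     finitely many windows: the ultrafilter chooses one for each tolerance, the pigeonhole one for all tolerances.
-/

set_option autoImplicit false

namespace Claimed.Agent.R252

open MeasureTheory Filter Topology
open Claimed.Agent.R255 (uf)
open scoped ENNReal BigOperators

noncomputable section

/-! ## 1. The language: states along the sequence, one-scale cores -/

/-- the standing data of the exit `KsSeqTilt` -/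
structure KtfSeq (p : KpPrm) (EE : Set ℝ) (Rs : KbRes) (R : ℕ → KsRef KbVer.two) (A : ∀ n, (R n).Par) : Prop where
  ok : KsSeqOk Rs R p EE
  tilt : ∀ τ : ℝ, 0 < τ → ∀ᶠ n in uf, (R n).Tilt (Rs.N n ^ τ)
  one : ∀ᶠ n in uf, (R n).One (A n)

theorem KtfSeq.mono {p : KpPrm} {EE EE' : Set ℝ} {Rs : KbRes} {R : ℕ → KsRef KbVer.two} {A : ∀ n, (R n).Par} (h : KtfSeq p EE' Rs R A)
    (hE : EE ⊆ EE') : KtfSeq p EE Rs R A :=
  ⟨⟨h.ok.N, h.ok.prm, h.ok.ok, fun x hx => h.ok.depths x (hE hx), fun x hx => h.ok.widths x (hE hx), fun x hx => h.ok.meshes x (hE hx),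
    h.ok.ord, h.ok.chi⟩, h.tilt, h.one⟩

/-- a one-scale predicate of (record, parent, selection, slack); all further data are existentially quantified INSIDE the predicate -/
abbrev KtfPred : Type 1 := ∀ (R : KsRef KbVer.two), R.Par → Set (R.L × ℝ) → ℝ → Prop

/-- monotone in the slack -/
def KtfMono (Φ : KtfPred) : Prop := ∀ (R : KsRef KbVer.two) (A : R.Par) (E : Set (R.L × ℝ)) (K K' : ℝ), 2 ≤ R.N → K ≤ K' → Φ R A E K → Φ R A E K'

/-- **a state of the sequence**: for every tolerance, eventually, a dense part of the residual carries `Φ`.   NO sequence of data is selected. -/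
def KtfSt (Φ : KtfPred) (R : ℕ → KsRef KbVer.two) (A : ∀ n, (R n).Par) (E : ∀ n, Set ((R n).L × ℝ)) : Prop :=
  ∀ τ : ℝ, 0 < τ → ∀ᶠ n in uf, ∃ E' ⊆ E n, KsCur (R n) E' ((R n).N ^ τ) ∧ Φ (R n) (A n) E' ((R n).N ^ τ)

/-- **a one-scale core** `Φ ⟹ Ψ` (on a dense part): `∀ τ_out ∃ lists, τ_in, N₁` -/
def KtfCore (p : KpPrm) (Φ Ψ : KtfPred) : Prop :=
  ∀ τ' : ℝ, 0 < τ' → ∃ G : KsReq, G.Ok ∧ ∃ τ : ℝ, 0 < τ ∧ ∃ N₁ : ℝ, ∀ (R : KsRef KbVer.two) (A : R.Par) (E : Set (R.L × ℝ)),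
    K7In p G τ N₁ R A E → Φ R A E (R.N ^ τ) → ∃ E' ⊆ E, KsCur R E' (R.N ^ τ') ∧ Ψ R A E' (R.N ^ τ')

/-- the exponents occurring in requirement lists -/
def ktfSupp (G : KsReq) : Set ℝ := ↑G.depths ∪ ↑G.widths ∪ ↑G.meshes

theorem ktf_supp_countable (G : KsReq) : (ktfSupp G).Countable :=
  ((Finset.countable_toSet _).union (Finset.countable_toSet _)).union (Finset.countable_toSet _)

theorem ktf_cur_mono {R : KsRef KbVer.two} {E : Set (R.L × ℝ)} {K K' : ℝ} (hK : K ≤ K') (h : KsCur R E K) : KsCur R E K' :=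
  ⟨h.meas, h.sub, h.mass.trans (mul_le_mul' (ENNReal.ofReal_le_ofReal hK) le_rfl)⟩

theorem ktf_rpow_mono {N a b : ℝ} (hN : 2 ≤ N) (h : a ≤ b) : N ^ a ≤ N ^ b := Real.rpow_le_rpow_of_exponent_le (by linarith) h

/-- the standing hypotheses hold eventually -/
theorem ktf_in_ev {p : KpPrm} {EE : Set ℝ} {Rs : KbRes} {R : ℕ → KsRef KbVer.two} {A : ∀ n, (R n).Par} (h : KtfSeq p EE Rs R A)
    {G : KsReq} (hG : G.Ok) (hEE : ktfSupp G ⊆ EE) {τ : ℝ} (hτ : 0 < τ) (N₁ : ℝ) :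
    ∀ᶠ n in uf, ∀ E : Set ((R n).L × ℝ), KsCur (R n) E ((R n).N ^ τ) → K7In p G τ N₁ (R n) (A n) E := by
  have h1 : ∀ᶠ n in uf, ∀ x ∈ G.depths, x ∈ (R n).depths :=
    (eventually_all_finset _).2 fun x hx => h.ok.depths x (hEE (Or.inl (Or.inl hx))) (hG.depths x hx)
  have h2 : ∀ᶠ n in uf, ∀ x ∈ G.widths, x ∈ (R n).widths :=
    (eventually_all_finset _).2 fun x hx => h.ok.widths x (hEE (Or.inl (Or.inr hx))) (hG.widths x hx)
  have h3 : ∀ᶠ n in uf, ∀ x ∈ G.meshes, x ∈ (R n).meshes :=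
    (eventually_all_finset _).2 fun x hx => h.ok.meshes x (hEE (Or.inr hx)) (hG.meshes x hx)
  filter_upwards [h1, h2, h3, h.ok.ord G.ord, h.ok.chi G.U, h.ok.ok τ hτ, h.tilt τ hτ, h.one, Rs.lim.eventually_ge_atTop N₁]
    with n a1 a2 a3 a4 a5 a6 a7 a8 a9 E hE
  have e := h.ok.N n
  exact ⟨e ▸ a9, ⟨h.ok.prm n, a1, a2, a3, a4, e ▸ a5⟩, e ▸ a6, e ▸ a7, a8, hE⟩

theorem ktf_two_le {p : KpPrm} {EE : Set ℝ} {Rs : KbRes} {R : ℕ → KsRef KbVer.two} {A : ∀ n, (R n).Par} (h : KtfSeq p EE Rs R A) (n : ℕ) :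
    2 ≤ (R n).N := (h.ok.N n) ▸ Rs.two_le n

theorem ktf_exists_nat {τ : ℝ} (hτ : 0 < τ) : ∃ m : ℕ, 1 / ((m : ℝ) + 1) ≤ τ := by
  obtain ⟨m, hm⟩ := exists_nat_one_div_lt hτ
  exact ⟨m, hm.le⟩

/-- **a core acts on states**; the rich set is the union of its lists at the tolerances `1/(m+1)` -/
theorem ktf_core_seq {p : KpPrm} {Φ Ψ : KtfPred} (hΨ : KtfMono Ψ) (hc : KtfCore p Φ Ψ) :
    ∃ EE : Set ℝ, EE.Countable ∧ ∀ (Rs : KbRes) (R : ℕ → KsRef KbVer.two) (A : ∀ n, (R n).Par) (E : ∀ n, Set ((R n).L × ℝ)),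
      KtfSeq p EE Rs R A → KtfSt Φ R A E → KtfSt Ψ R A E := by
  choose G hG τ hτ N₁ h using fun m : ℕ => hc (1 / ((m : ℝ) + 1)) (by positivity)
  refine ⟨⋃ m, ktfSupp (G m), Set.countable_iUnion fun m => ktf_supp_countable _, fun Rs R A E hS hΦ τ' hτ' => ?_⟩
  obtain ⟨m, hm⟩ := ktf_exists_nat hτ'
  filter_upwards [ktf_in_ev hS (hG m) (Set.subset_iUnion (fun m => ktfSupp (G m)) m) (hτ m) (N₁ m), hΦ (τ m) (hτ m)] with n h1 h2
  obtain ⟨E', hE', hcur, hE'Φ⟩ := h2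
  obtain ⟨E'', hE'', hcur', hE''Ψ⟩ := h m (R n) (A n) E' (h1 E' hcur) hE'Φ
  have hN := ktf_two_le hS n
  exact ⟨E'', hE''.trans hE', ktf_cur_mono (ktf_rpow_mono hN hm) hcur', hΨ _ _ _ _ _ hN (ktf_rpow_mono hN hm) hE''Ψ⟩

/-- countable families of sequence-level statements share one rich set -/
theorem ktf_EE_iUnion {ι : Type*} [Countable ι] (P : ι → Set ℝ → Prop) (hP : ∀ i EE EE', EE ⊆ EE' → P i EE → P i EE')
    (h : ∀ i, ∃ EE : Set ℝ, EE.Countable ∧ P i EE) : ∃ EE : Set ℝ, EE.Countable ∧ ∀ i, P i EE := by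
  choose EE h1 h2 using h
  exact ⟨⋃ i, EE i, Set.countable_iUnion h1, fun i => hP i _ _ (Set.subset_iUnion EE i) (h2 i)⟩

/-- the ultrafilter chooses one element of a finite list -/
theorem ktf_uf_list {α : Type*} (L : List α) (P : α → ℕ → Prop) (h : ∀ᶠ n in uf, ∃ a ∈ L, P a n) : ∃ a ∈ L, ∀ᶠ n in uf, P a n := by
  induction L with
  | nil =>
    exfalso
    have hF : ∀ᶠ _n in uf, False := h.mono fun n hn => by simp at hn
    have := Claimed.Agent.R255.uf_neBot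
    exact hF.exists.elim fun _ h => h
  | cons a L ih =>
    rcases Claimed.Agent.R255.uf_em (P a) with h1 | h1
    · exact ⟨a, List.mem_cons_self, h1⟩
    · obtain ⟨b, hb, hb'⟩ := ih (by
        filter_upwards [h, h1] with n hn hn1
        obtain ⟨b, hb, hP⟩ := hn
        rcases List.mem_cons.1 hb with rfl | hb
        · exact absurd hP hn1
        · exact ⟨b, hb, hP⟩)
      exact ⟨b, List.mem_cons_of_mem _ hb, hb'⟩

/-- pigeonhole over the tolerances -/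
theorem ktf_pigeon {α : Type*} (L : List α) (P : α → ℝ → Prop) (hP : ∀ a τ τ', τ ≤ τ' → P a τ → P a τ')
    (h : ∀ τ : ℝ, 0 < τ → ∃ a ∈ L, P a τ) : ∃ a ∈ L, ∀ τ : ℝ, 0 < τ → P a τ := by
  induction L with
  | nil => obtain ⟨a, ha, -⟩ := h 1 one_pos; simp at ha
  | cons a L ih =>
    by_cases ha : ∀ τ : ℝ, 0 < τ → P a τ
    · exact ⟨a, List.mem_cons_self, ha⟩
    · simp only [not_forall] at ha
      obtain ⟨τ₀, h0, hn⟩ := ha
      obtain ⟨b, hb, hb'⟩ := ih fun τ hτ => by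
        obtain ⟨b, hb, hP'⟩ := h (min τ τ₀) (lt_min hτ h0)
        rcases List.mem_cons.1 hb with rfl | hb
        · exact absurd (hP _ _ _ (min_le_right _ _) hP') hn
        · exact ⟨b, hb, hP _ _ _ (min_le_left _ _) hP'⟩
      exact ⟨b, List.mem_cons_of_mem _ hb, hb'⟩

/-- **the dichotomy**: a state which does not hold fails eventually at some tolerance `1/(j+1)` -/
theorem ktf_not_st {Φ : KtfPred} (hΦ : KtfMono Φ) {R : ℕ → KsRef KbVer.two} {A : ∀ n, (R n).Par} {E : ∀ n, Set ((R n).L × ℝ)}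
    (hN : ∀ n, 2 ≤ (R n).N) (h : ¬ KtfSt Φ R A E) :
    ∃ j : ℕ, ∀ᶠ n in uf, ¬ ∃ E' ⊆ E n, KsCur (R n) E' ((R n).N ^ (1 / ((j : ℝ) + 1))) ∧ Φ (R n) (A n) E' ((R n).N ^ (1 / ((j : ℝ) + 1))) := by
  simp only [KtfSt, not_forall] at h
  obtain ⟨τ, hτ, hn⟩ := h
  obtain ⟨j, hj⟩ := ktf_exists_nat hτ
  refine ⟨j, ((Claimed.Agent.R255.uf_em _).resolve_left hn).mono fun n hn' => ?_⟩
  rintro ⟨E', h1, h2, h3⟩
  exact hn' ⟨E', h1, ktf_cur_mono (ktf_rpow_mono (hN n) hj) h2, hΦ _ _ _ _ _ (hN n) (ktf_rpow_mono (hN n) hj) h3⟩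

/-! ## 2. Monotonicity kit -/

theorem ktf_tilt_mono {R : KsRef KbVer.two} {K K' : ℝ} (hK : K ≤ K') (h : R.Tilt K) : R.Tilt K' :=
  ⟨h.ell_pos, h.tri, fun Q => (h.full Q).trans (mul_le_mul_of_nonneg_right hK (abs_nonneg _)), fun Q => (h.cen Q).trans hK⟩

theorem ktf_in_mono {p : KpPrm} {G : KsReq} {τ τ' N₁ : ℝ} {R : KsRef KbVer.two} {A : R.Par} {E : Set (R.L × ℝ)} (hτ : τ ≤ τ')
    (h : K7In p G τ N₁ R A E) : K7In p G τ' N₁ R A E :=
  have hK := ktf_rpow_mono h.ok.N_ge hτ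
  ⟨h.N, h.sup, ks_ok_mono h.ok hK, ktf_tilt_mono hK h.tilt, h.one, ktf_cur_mono hK h.cur⟩

/-- a core which keeps the selection -/
theorem ktf_core_of {p : KpPrm} {Φ Ψ : KtfPred} (hΦ : KtfMono Φ)
    (h : ∀ τ' : ℝ, 0 < τ' → ∃ G : KsReq, G.Ok ∧ ∃ τ : ℝ, 0 < τ ∧ ∃ N₁ : ℝ, ∀ (R : KsRef KbVer.two) (A : R.Par) (E : Set (R.L × ℝ)),
      K7In p G τ N₁ R A E → Φ R A E (R.N ^ τ) → Ψ R A E (R.N ^ τ')) : KtfCore p Φ Ψ := by
  intro τ' hτ'
  obtain ⟨G, hG, τ, hτ, N₁, hh⟩ := h τ' hτ'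
  refine ⟨G, hG, min τ τ', lt_min hτ hτ', N₁, fun R A E hin hΦ' => ⟨E, subset_rfl, ?_, ?_⟩⟩
  · exact ktf_cur_mono (ktf_rpow_mono hin.ok.N_ge (min_le_right _ _)) hin.cur
  · exact hh R A E (ktf_in_mono (min_le_left _ _) hin) (hΦ _ _ _ _ _ hin.ok.N_ge (ktf_rpow_mono hin.ok.N_ge (min_le_left _ _)) hΦ')

theorem ktf_cand_mono {R : KsRef KbVer.two} {E E' : Set (R.L × ℝ)} {D c C K D' c' C' K' : ℝ} (hN : 2 ≤ R.N) (hE : E ⊆ E') (hD : D ≤ D') (hc : c' ≤ c)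
    (hC : C ≤ C') (hK : K ≤ K') (h : K7Cand R E D c C K) : K7Cand R E' D' c' C' K' := by
  obtain ⟨Q, g, h1, h2, h3, h4⟩ := h
  refine ⟨Q, g, h1.trans hD, hc.trans h2, h3.trans hC, ?_⟩
  rcases h4 with ⟨P, Cn, h⟩ | ⟨ρ, Cn, h⟩
  · have h' := ks_time_mono (by linarith) hK h
    exact Or.inl ⟨P, Cn, { h' with sub := fun x hx => ⟨hE (h'.sub hx).1, (h'.sub hx).2⟩ }⟩
  · have h' := ks_strip_mono (by linarith) hK h
    exact Or.inr ⟨ρ, Cn, { h' with sub := fun x hx => ⟨hE (h'.sub hx).1, (h'.sub hx).2⟩ }⟩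

/-- the terminal predicate -/
def KtfPCand (D c C : ℝ) : KtfPred := fun R _ E K => K7Cand R E D c C K

/-- the initial predicate -/
def KtfPTrue : KtfPred := fun _ _ _ _ => True

theorem ktf_mono_cand (D c C : ℝ) : KtfMono (KtfPCand D c C) :=
  fun _ _ _ _ _ hN hK h => ktf_cand_mono hN subset_rfl le_rfl le_rfl le_rfl hK h

/-- the conclusion of `KsSeqTilt` for given constants -/
def KtfEnd (Rs : KbRes) (R : ℕ → KsRef KbVer.two) (E : ∀ n, Set ((R n).L × ℝ)) (D c C : ℝ) : Prop :=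
  ∀ τ₁ : ℝ, 0 < τ₁ → ∀ᶠ n in uf, K7Cand (R n) (E n) D c C (Rs.N n ^ τ₁)

theorem ktf_end_of_st {p : KpPrm} {EE : Set ℝ} {Rs : KbRes} {R : ℕ → KsRef KbVer.two} {A : ∀ n, (R n).Par} {E : ∀ n, Set ((R n).L × ℝ)}
    (hS : KtfSeq p EE Rs R A) {D c C : ℝ} (h : KtfSt (KtfPCand D c C) R A E) : KtfEnd Rs R E D c C := by
  intro τ₁ hτ₁
  filter_upwards [h τ₁ hτ₁] with n hn
  obtain ⟨E', hE', -, hc⟩ := hn
  rw [← hS.ok.N n]
  exact ktf_cand_mono (ktf_two_le hS n) hE' le_rfl le_rfl le_rfl le_rfl hc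

theorem ktf_lo {N a τ β : ℝ} (hN : 0 < N) (h : N ^ (a - τ) ≤ β) : N ^ a ≤ N ^ τ * β := by
  have e : N ^ a = N ^ τ * N ^ (a - τ) := by rw [← Real.rpow_add hN]; congr 1; ring
  rw [e]
  exact mul_le_mul_of_nonneg_left h (Real.rpow_nonneg hN.le _)

theorem ktf_lo' {N a τ β : ℝ} (hN : 0 < N) (h : N ^ a ≤ N ^ τ * β) : N ^ (a - τ) ≤ β := by
  rw [Real.rpow_sub hN, div_le_iff₀ (Real.rpow_pos_of_pos hN _)]
  linarith [mul_comm (N ^ τ) β]

theorem ktf_hi {N a τ : ℝ} (hN : 0 < N) : N ^ (a + τ) = N ^ τ * N ^ a := by rw [Real.rpow_add hN, mul_comm]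

theorem ktf_layer_mono {W : K7aLn} {P : K7aLayer W} {K K' χ th β d : ℝ} (hK : K ≤ K') (hβ : 0 ≤ β) (hth : 0 ≤ th) (h : P.Ok K χ th β d) :
    P.Ok K' χ th β d :=
  { meas := h.meas, grp := h.grp, quad := h.quad
    norm := fun φ t ht u hu => (h.norm φ t ht u hu).trans hK
    fit := fun l φ hl t ht => ⟨(h.fit l φ hl t ht).1.trans (mul_le_mul_of_nonneg_right hK hβ),
      (h.fit l φ hl t ht).2.trans (mul_le_mul_of_nonneg_right hK hth)⟩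
    floor := fun φ => (h.floor φ).trans (mul_le_mul' (ENNReal.ofReal_le_ofReal hK) le_rfl) }

theorem ktf_lists_mono {W : K7aW} {P : K7aLayer W.toK7aLn} {E : Set (W.L × ℝ)} {K K' χ qd g m : ℝ} (hK : K ≤ K') (h : K7aLists W P E K χ qd g m) :
    K7aLists W P E K' χ qd g m where
  fwd := fun Q mv z D => by
    obtain ⟨S, h1, h2⟩ := h.fwd Q mv z D
    exact ⟨S, h1.trans hK, h2⟩
  bwd := fun φ D => by
    obtain ⟨S, h1, h2⟩ := h.bwd φ D
    exact ⟨S, h1.trans hK, h2⟩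

/-! ## 3. Secs 7.1-7.3: the three cores of helper26 in the language of states -/

/-- **the output of `k7a_P72K` at one depth `s`**, slack `K` -/
structure KtfLay (p : KpPrm) (M Mχ s : ℝ) (R : KsRef KbVer.two) (A : R.Par) (E : Set (R.L × ℝ)) (K : ℝ) (P : K7aLayer (R.toLn A)) (β qd : ℝ) : Prop where
  ok : P.Ok K (R.N ^ (-Mχ)) (R.N ^ (-s)) β p.d
  pos : 0 < β
  lo : R.N ^ (-(p.ell * s) - M) ≤ K * β
  hi : β ≤ K * R.N ^ (-(p.ell * s))
  lab : ∀ x ∈ E, P.lab x.1 ≠ none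
  dy : ∃ j : ℕ, qd = (R.toW A s).q / 2 ^ j
  qlo : min (R.N ^ (-(p.k * s))) (β * R.N ^ (p.ell * s)) ≤ K * qd
  qhi : qd ≤ K * min (R.N ^ (-(p.k * s))) (β * R.N ^ (p.ell * s))
  lists : K7aLists (R.toW A s) P E K (R.N ^ (-Mχ)) qd (R.N ^ (-(p.ell * s))) (qd * R.N ^ (-(p.ell * s)))

theorem KtfLay.mono {p : KpPrm} {M Mχ s : ℝ} {R : KsRef KbVer.two} {A : R.Par} {E : Set (R.L × ℝ)} {K K' : ℝ} {P : K7aLayer (R.toLn A)} {β qd : ℝ}
    (hN : 2 ≤ R.N) (hK : K ≤ K') (h : KtfLay p M Mχ s R A E K P β qd) : KtfLay p M Mχ s R A E K' P β qd := by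
  have hN0 : (0 : ℝ) ≤ R.N := by linarith
  have hq : 0 ≤ qd := by
    obtain ⟨j, rfl⟩ := h.dy
    have : 0 < (R.toW A s).q := by unfold K7aW.q; positivity
    positivity
  have hm : 0 ≤ min (R.N ^ (-(p.k * s))) (β * R.N ^ (p.ell * s)) :=
    le_min (Real.rpow_nonneg hN0 _) (mul_nonneg h.pos.le (Real.rpow_nonneg hN0 _))
  exact
  { ok := ktf_layer_mono hK h.pos.le (Real.rpow_nonneg hN0 _) h.ok
    pos := h.pos
    lo := h.lo.trans (mul_le_mul_of_nonneg_right hK h.pos.le)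
    hi := h.hi.trans (mul_le_mul_of_nonneg_right hK (Real.rpow_nonneg hN0 _))
    lab := h.lab
    dy := h.dy
    qlo := h.qlo.trans (mul_le_mul_of_nonneg_right hK hq)
    qhi := h.qhi.trans (mul_le_mul_of_nonneg_right hK hm)
    lists := ktf_lists_mono hK h.lists }

/-- the three depths `s, s + u, s + c₂` -/
def ktfDp (s u c2 : ℝ) (i : Fin 3) : ℝ := s + ![0, u, c2] i

/-- three layers -/
def KtfPLay (p : KpPrm) (M Mχ : ℝ) (dp : Fin 3 → ℝ) : KtfPred := fun R A E K =>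
  ∃ (P : Fin 3 → K7aLayer (R.toLn A)) (β qd : Fin 3 → ℝ), ∀ i, KtfLay p M Mχ (dp i) R A E K (P i) (β i) (qd i)

/-- three WIDE layers: `β_i ≥ g_i / K` -/
def KtfPWide (p : KpPrm) (M Mχ : ℝ) (dp : Fin 3 → ℝ) : KtfPred := fun R A E K =>
  ∃ (P : Fin 3 → K7aLayer (R.toLn A)) (β qd : Fin 3 → ℝ), (∀ i, KtfLay p M Mχ (dp i) R A E K (P i) (β i) (qd i)) ∧
    ∀ i, R.N ^ (-(p.ell * dp i)) ≤ K * β i

/-- one layer in the window `N^{-B1} ≤ β ≤ N^{-B0}` -/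
def KtfPWin (p : KpPrm) (M Mχ s B0 B1 : ℝ) : KtfPred := fun R A E K =>
  ∃ (P : K7aLayer (R.toLn A)) (β qd : ℝ), KtfLay p M Mχ s R A E K P β qd ∧ R.N ^ (-B1) ≤ β ∧ β ≤ R.N ^ (-B0)

/-- the row list = entry of `prop:horizontal-model` -/
def KtfPRow (B r Mξ : ℝ) : KtfPred := fun R _ E K => K7bRowList R E K (R.N ^ (-B)) r (R.N ^ (-Mξ))

theorem ktf_mono_lay (p : KpPrm) (M Mχ : ℝ) (dp : Fin 3 → ℝ) : KtfMono (KtfPLay p M Mχ dp) := by
  rintro R A E K K' hN hK ⟨P, β, qd, h⟩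
  exact ⟨P, β, qd, fun i => (h i).mono hN hK⟩

theorem ktf_mono_wide (p : KpPrm) (M Mχ : ℝ) (dp : Fin 3 → ℝ) : KtfMono (KtfPWide p M Mχ dp) := by
  rintro R A E K K' hN hK ⟨P, β, qd, h, hw⟩
  exact ⟨P, β, qd, fun i => (h i).mono hN hK, fun i => (hw i).trans (mul_le_mul_of_nonneg_right hK (h i).pos.le)⟩

theorem ktf_mono_win (p : KpPrm) (M Mχ s B0 B1 : ℝ) : KtfMono (KtfPWin p M Mχ s B0 B1) := by
  rintro R A E K K' hN hK ⟨P, β, qd, h, h1, h2⟩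
  exact ⟨P, β, qd, h.mono hN hK, h1, h2⟩

theorem ktf_mono_row (B r Mξ : ℝ) : KtfMono (KtfPRow B r Mξ) := by
  rintro R A E K K' _ hK ⟨Lst, h1, h2⟩
  exact ⟨Lst, fun Q C => (h1 Q C).trans hK, h2⟩

/-- requirement lists consisting of depths only -/
def ktfReqD (D : Finset ℝ) : KsReq := ⟨D, ∅, ∅, 1, 0⟩

theorem ktf_reqD_ok {D : Finset ℝ} (hne : D.Nonempty) (hD : ∀ s ∈ D, 0 < s) : (ktfReqD D).Ok :=
  ⟨hne, hD, fun r hr => by simp [ktfReqD] at hr, fun r hr => by simp [ktfReqD] at hr, le_rfl, fun r hr => by simp [ktfReqD] at hr, le_rfl⟩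

/-- `k7a_P72K` as a core: three layers on a dense part -/
theorem ktf_core_P72 (h : k7a_P72K) (p : KpPrm) (hp : p.Ok) (hell : 0 < p.ell) (dp : Fin 3 → ℝ) (hdp : ∀ i, 0 < dp i) :
    ∃ M Mχ0 : ℝ, 0 ≤ M ∧ ∀ Mχ : ℝ, Mχ0 ≤ Mχ → KtfCore p KtfPTrue (KtfPLay p M Mχ dp) := by
  classical
  obtain ⟨M, Mχ0, hM, hh⟩ := h p (Finset.univ.image dp) hp hell (fun s hs => by
    obtain ⟨i, -, rfl⟩ := Finset.mem_image.1 hs
    exact hdp i)
  refine ⟨M, Mχ0, hM, fun Mχ hMχ τ' hτ' => ?_⟩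
  obtain ⟨τ, N1, G, hτ, hG, H⟩ := hh Mχ hMχ τ' hτ'
  refine ⟨G, hG, τ, hτ, N1, fun R A E hin _ => ?_⟩
  obtain ⟨E', P, β, qd, hcur, hsub, hall⟩ := H R A E hin.sup.prm hin.N hin.sup.depths hin.sup.meshes hin.sup.widths hin.sup.ord hin.sup.χ
    hin.ok hin.tilt hin.one hin.cur
  refine ⟨E', hsub, hcur, fun i => P (dp i), fun i => β (dp i), fun i => qd (dp i), fun i => ?_⟩
  obtain ⟨a1, a2, a3, a4, a5, a6, a7, a8⟩ := hall (dp i) (Finset.mem_image_of_mem _ (Finset.mem_univ _))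
  have hN : 0 < R.N := by linarith [hin.ok.N_ge]
  exact ⟨a1, lt_of_lt_of_le (Real.rpow_pos_of_pos hN _) a2, ktf_lo hN a2, by rw [← ktf_hi hN]; exact a3, a4, a5, a6, a7, a8⟩

/-- `k7a_WideK` as a core: three wide layers give a time candidate -/
theorem ktf_core_wide (h : k7a_WideK) (p : KpPrm) (hp : p.Ok) (hell : 0 < p.ell) (s u c2 M : ℝ) (hs : 0 < s) (hu : 0 < u) (hc : 0 < c2)
    (hc' : c2 < (1 - p.d) * u / 4) (hu' : (p.ell + 10 / (1 - p.d) + 3) * u ≤ p.k * s) :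
    ∃ Mχ0 : ℝ, ∀ Mχ : ℝ, Mχ0 ≤ Mχ → KtfCore p (KtfPWide p M Mχ (ktfDp s u c2)) (KtfPCand s c2 c2) := by
  obtain ⟨Mχ0, hh⟩ := h p s u c2 hp hell hs hu hc hc' hu'
  refine ⟨Mχ0, fun Mχ hMχ => ktf_core_of (ktf_mono_wide _ _ _ _) fun τ' hτ' => ?_⟩
  obtain ⟨τ, N1, G, hτ, hG, H⟩ := hh Mχ hMχ τ' hτ'
  refine ⟨G, hG, τ, hτ, N1, fun R A E hin hΦ => ?_⟩
  obtain ⟨P, β, qd, hl, hw⟩ := hΦ
  have hN : 0 < R.N := by linarith [hin.ok.N_ge]
  have e0 : ktfDp s u c2 0 = s := by simp [ktfDp]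
  have h0 := hl 0
  rw [e0] at h0
  obtain ⟨Q, T, Cn, hQ, hcand⟩ := H R A E P β (qd 0) hin.sup.prm hin.N hin.sup.depths hin.sup.meshes hin.sup.widths hin.sup.χ
    hin.ok hin.tilt hin.one hin.cur (fun i => (hl i).ok)
    (fun i => ⟨ktf_lo' hN (hw i), by rw [ktf_hi hN]; exact (hl i).hi⟩) (fun x hx i => (hl i).lab x hx) h0.dy h0.qlo h0.qhi h0.lists
  exact ⟨Q, c2, hQ.le, le_rfl, le_rfl, Or.inl ⟨T, Cn, hcand⟩⟩

/-- `k7a_RowK` as a core: a layer in a window gives the row list -/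
theorem ktf_core_row (h : k7a_RowK) (p : KpPrm) (hp : p.Ok) (hell : 0 < p.ell) (M s r B0 B1 Mχ : ℝ) (hs : 0 < s) (hsr : s < r)
    (h1 : p.ell * r < B0) (h2 : B0 ≤ B1) (h3 : B1 < (p.k + p.ell) * r) (hMχ : 0 ≤ Mχ) :
    ∃ Mξ0 : ℝ, ∀ Mξ : ℝ, Mξ0 ≤ Mξ → KtfCore p (KtfPWin p M Mχ s B0 B1) (KtfPRow B0 r Mξ) := by
  classical
  obtain ⟨Mξ0, hh⟩ := h p s r B0 B1 Mχ hp hell hs hsr h1 h2 h3 hMχ
  refine ⟨Mξ0, fun Mξ hMξ => ktf_core_of (ktf_mono_win _ _ _ _ _ _) fun τ' hτ' => ?_⟩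
  obtain ⟨τ, N1, hτ, H⟩ := hh Mξ hMξ τ' hτ'
  refine ⟨ktfReqD {s, r}, ktf_reqD_ok ⟨s, by simp⟩ (fun x hx => by
    rcases Finset.mem_insert.1 hx with rfl | hx
    · exact hs
    · rw [Finset.mem_singleton.1 hx]; exact hs.trans hsr), τ, hτ, N1, fun R A E hin hΦ => ?_⟩
  obtain ⟨P, β, qd, hl, hw1, hw2⟩ := hΦ
  exact H R A E P β qd hin.sup.prm hin.N (hin.sup.depths (by simp [ktfReqD])) (hin.sup.depths (by simp [ktfReqD]))
    hin.ok hin.tilt hin.one hin.cur hl.ok hw1 hw2 hl.lab hl.dy hl.qlo hl.qhi hl.lists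

/-! ## 4. Finitely many alternatives; the windows for `β` -/

/-- finitely many alternatives at every tolerance: one of them is a state -/
theorem ktf_st_list {α : Type*} (L : List α) (Φ : α → KtfPred) (hΦ : ∀ a, KtfMono (Φ a)) {R : ℕ → KsRef KbVer.two} {A : ∀ n, (R n).Par}
    {E : ∀ n, Set ((R n).L × ℝ)} (hN : ∀ n, 2 ≤ (R n).N)
    (h : ∀ τ : ℝ, 0 < τ → ∀ᶠ n in uf, ∃ a ∈ L, ∃ E' ⊆ E n, KsCur (R n) E' ((R n).N ^ τ) ∧ Φ a (R n) (A n) E' ((R n).N ^ τ)) :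
    ∃ a ∈ L, KtfSt (Φ a) R A E := by
  refine ktf_pigeon L (fun a τ => ∀ᶠ n in uf, ∃ E' ⊆ E n, KsCur (R n) E' ((R n).N ^ τ) ∧ Φ a (R n) (A n) E' ((R n).N ^ τ)) ?_ ?_
  · intro a τ τ' hτ hP
    filter_upwards [hP] with n hn
    obtain ⟨E', h1, h2, h3⟩ := hn
    exact ⟨E', h1, ktf_cur_mono (ktf_rpow_mono (hN n) hτ) h2, hΦ a _ _ _ _ _ (hN n) (ktf_rpow_mono (hN n) hτ) h3⟩
  · intro τ hτ
    exact ktf_uf_list L _ (h τ hτ)

/-- a number between `N^{-(a + (J+1) δ)}` and `N^{-a}` lies in one of the `J + 1` windows of length `δ` -/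
theorem ktf_window {N β a δ : ℝ} (J : ℕ) (h0 : β ≤ N ^ (-a)) (h1 : N ^ (-(a + ((J : ℝ) + 1) * δ)) ≤ β) :
    ∃ l ≤ J, N ^ (-(a + (l : ℝ) * δ + δ)) ≤ β ∧ β ≤ N ^ (-(a + (l : ℝ) * δ)) := by
  induction J with
  | zero => exact ⟨0, le_rfl, by simpa using h1, by simpa using h0⟩
  | succ J ih =>
    by_cases hc : N ^ (-(a + ((J : ℝ) + 1) * δ)) ≤ β
    · obtain ⟨l, hl, h⟩ := ih hc
      exact ⟨l, hl.trans (Nat.le_succ J), h⟩
    · refine ⟨J + 1, le_rfl, ?_, ?_⟩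
      · have e : a + ((J + 1 : ℕ) : ℝ) * δ + δ = a + (((J + 1 : ℕ) : ℝ) + 1) * δ := by ring
        rw [e]; exact h1
      · push_cast
        exact (not_le.1 hc).le

/-- the threshold `θ_j = min (1/(j+1)) (k s / 2)` -/
def ktfTh (p : KpPrm) (s : ℝ) (j : ℕ) : ℝ := min (1 / ((j : ℝ) + 1)) (p.k * s / 2)

/-- the windows `[B0, B1]`, `B0 = ℓ s' + θ_j + l θ_j / 2`, `B1 = B0 + θ_j / 2` and the label depth `r = (B0 - θ_j / 2) / ℓ` -/
def ktfB0 (p : KpPrm) (s s' : ℝ) (j l : ℕ) : ℝ := p.ell * s' + ktfTh p s j + (l : ℝ) * (ktfTh p s j / 2)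

def ktfB1 (p : KpPrm) (s s' : ℝ) (j l : ℕ) : ℝ := ktfB0 p s s' j l + ktfTh p s j / 2

def ktfRr (p : KpPrm) (s s' : ℝ) (j l : ℕ) : ℝ := (ktfB0 p s s' j l - ktfTh p s j / 2) / p.ell

theorem ktf_th_pos {p : KpPrm} {s : ℝ} (hk : 0 < p.k) (hs : 0 < s) (j : ℕ) : 0 < ktfTh p s j :=
  lt_min (by positivity) (by positivity)

/-- the windows are admissible for `k7a_RowK` -/
theorem ktf_win_adm {p : KpPrm} {s s' : ℝ} (hk : 0 < p.k) (hell : 0 < p.ell) (hs : 0 < s) (hs' : s ≤ s') (j l : ℕ) :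
    s' < ktfRr p s s' j l ∧ p.ell * ktfRr p s s' j l < ktfB0 p s s' j l ∧ ktfB0 p s s' j l ≤ ktfB1 p s s' j l ∧
      ktfB1 p s s' j l < (p.k + p.ell) * ktfRr p s s' j l := by
  have hθ := ktf_th_pos hk hs j
  have hθ' : ktfTh p s j ≤ p.k * s / 2 := min_le_right _ _
  have hl : 0 ≤ (l : ℝ) * (ktfTh p s j / 2) := by positivity
  have e : p.ell * ktfRr p s s' j l = ktfB0 p s s' j l - ktfTh p s j / 2 := by unfold ktfRr; field_simp
  have hr : s' < ktfRr p s s' j l := by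
    unfold ktfRr
    rw [lt_div_iff₀ hell]
    unfold ktfB0
    nlinarith
  refine ⟨hr, by rw [e]; linarith, by unfold ktfB1; linarith, ?_⟩
  have h1 : p.k * s ≤ p.k * ktfRr p s s' j l := mul_le_mul_of_nonneg_left (hs'.trans hr.le) hk.le
  rw [add_mul, e]
  unfold ktfB1
  nlinarith

/-- **the dichotomy on `β_s`** (07 l.919-924): three layers which are not wide contain a layer in one of countably many windows -/
theorem ktf_narrow {p : KpPrm} {EE : Set ℝ} {Rs : KbRes} {R : ℕ → KsRef KbVer.two} {A : ∀ n, (R n).Par} {E : ∀ n, Set ((R n).L × ℝ)}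
    (hS : KtfSeq p EE Rs R A) (hk : 0 < p.k) {s M Mχ : ℝ} (hs : 0 < s) {dp : Fin 3 → ℝ}
    (hL : KtfSt (KtfPLay p M Mχ dp) R A E) (hW : ¬ KtfSt (KtfPWide p M Mχ dp) R A E) :
    ∃ (i : Fin 3) (j l : ℕ), KtfSt (KtfPWin p M Mχ (dp i) (ktfB0 p s (dp i) j l) (ktfB1 p s (dp i) j l)) R A E := by
  have hN := ktf_two_le hS
  obtain ⟨j, hj⟩ := ktf_not_st (ktf_mono_wide p M Mχ dp) hN hW
  have hθ := ktf_th_pos hk hs j
  set θ := ktfTh p s j with hθd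
  have hθδ : θ ≤ 1 / ((j : ℝ) + 1) := min_le_left _ _
  obtain ⟨J, hJ⟩ := exists_nat_ge ((M + 1) / (θ / 2))
  have hJ' : M + 1 ≤ (J : ℝ) * (θ / 2) := by rwa [div_le_iff₀ (by positivity)] at hJ
  obtain ⟨a, -, ha⟩ := ktf_st_list ((List.finRange 3).product (List.range (J + 1)))
    (fun a : Fin 3 × ℕ => KtfPWin p M Mχ (dp a.1) (ktfB0 p s (dp a.1) j a.2) (ktfB1 p s (dp a.1) j a.2)) (fun a => ktf_mono_win _ _ _ _ _ _) hN
    (R := R) (A := A) (E := E) (fun τ hτ => by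
      have hτ0 : 0 < min τ (min (1 / ((j : ℝ) + 1)) 1) := lt_min hτ (lt_min (by positivity) one_pos)
      filter_upwards [hL _ hτ0, hj] with n hn hnj
      obtain ⟨E', hE', hcur, P, β, qd, hl⟩ := hn
      have hNn := hN n
      have hN0 : 0 < (R n).N := by linarith
      have m1 : (R n).N ^ (min τ (min (1 / ((j : ℝ) + 1)) 1)) ≤ (R n).N ^ τ := ktf_rpow_mono hNn (min_le_left _ _)
      have m2 : (R n).N ^ (min τ (min (1 / ((j : ℝ) + 1)) 1)) ≤ (R n).N ^ (1 / ((j : ℝ) + 1)) :=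
        ktf_rpow_mono hNn ((min_le_right _ _).trans (min_le_left _ _))
      have hex : ∃ i, (R n).N ^ (1 / ((j : ℝ) + 1)) * β i < (R n).N ^ (-(p.ell * dp i)) := by
        by_contra hcon
        simp only [not_exists, not_lt] at hcon
        exact hnj ⟨E', hE', ktf_cur_mono m2 hcur, P, β, qd, fun i => (hl i).mono hNn m2, hcon⟩
      obtain ⟨i, hi⟩ := hex
      have u0 : β i ≤ (R n).N ^ (-(p.ell * dp i + θ)) := by
        have h1 : β i ≤ (R n).N ^ (-(p.ell * dp i) - 1 / ((j : ℝ) + 1)) := by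
          rw [Real.rpow_sub hN0, le_div_iff₀ (Real.rpow_pos_of_pos hN0 _)]
          linarith [mul_comm ((R n).N ^ (1 / ((j : ℝ) + 1))) (β i)]
        exact h1.trans (ktf_rpow_mono hNn (by linarith))
      have u1 : (R n).N ^ (-(p.ell * dp i + θ + ((J : ℝ) + 1) * (θ / 2))) ≤ β i := by
        refine le_trans (ktf_rpow_mono hNn ?_) (ktf_lo' hN0 (hl i).lo)
        have : min τ (min (1 / ((j : ℝ) + 1)) 1) ≤ 1 := (min_le_right _ _).trans (min_le_right _ _)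
        nlinarith
      obtain ⟨l, hlJ, w1, w2⟩ := ktf_window J u0 u1
      refine ⟨(i, l), List.pair_mem_product.2 ⟨List.mem_finRange i, List.mem_range.2 (Nat.lt_succ_of_le hlJ)⟩, E', hE', ktf_cur_mono m1 hcur,
        P i, β i, qd i, (hl i).mono hNn m1, w1, w2⟩)
  exact ⟨a.1, j, a.2, ha⟩

/-! ## 5. The top of Secs 7 + 8 -/

/-- **THE SECOND HALF at the sequence level** (Secs 7.4, 7.5, 8; window `(B, r)`, `ℓ r < B < (k + ℓ) r`): a state of row lists of width `N^{-B}` at the label depth `r` ends in candidates.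
The constants `D, c, C` may depend on the sequence; the rich set only on `(p, B, r, Mξ)`. -/
def KtfSecond (p : KpPrm) (B r : ℝ) : Prop :=
  ∃ Mξ1 : ℝ, ∀ Mξ : ℝ, Mξ1 ≤ Mξ → ∃ EE : Set ℝ, EE.Countable ∧ ∀ (Rs : KbRes) (R : ℕ → KsRef KbVer.two) (A : ∀ n, (R n).Par) (E : ∀ n, Set ((R n).L × ℝ)),
    KtfSeq p EE Rs R A → KtfSt (KtfPRow B r Mξ) R A E → ∃ D c C : ℝ, 0 < c ∧ KtfEnd Rs R E D c C

/-- the initial state -/
theorem ktf_st_true {p : KpPrm} {EE : Set ℝ} {Rs : KbRes} {R : ℕ → KsRef KbVer.two} {A : ∀ n, (R n).Par} {E : ∀ n, Set ((R n).L × ℝ)}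
    (hS : KtfSeq p EE Rs R A) (hE : ∀ τ : ℝ, 0 < τ → ∀ᶠ n in uf, KsCur (R n) (E n) (Rs.N n ^ τ)) : KtfSt KtfPTrue R A E := by
  intro τ hτ
  filter_upwards [hE τ hτ] with n hn
  exact ⟨E n, subset_rfl, (hS.ok.N n) ▸ hn, trivial⟩

/-- **FIRST HALF + TOP** (07 l.296-955): the three cores of Secs 7.1-7.3 and the second half give the exit of Secs 7 + 8 -/
theorem ktf_tilt (h72 : k7a_P72K) (hWd : k7a_WideK) (hRw : k7a_RowK) (p : KpPrm) (hp : p.Ok) (hell : 0 < p.ell)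
    (h2 : ∀ B r : ℝ, 0 < r → p.ell * r < B → B < (p.k + p.ell) * r → KtfSecond p B r) : KsSeqTilt p := by
  have hk := hp.k_pos
  have hd : 0 < 1 - p.d := by linarith [hp.d_lt]
  -- the depths
  have hden : 0 < p.ell + 10 / (1 - p.d) + 3 := by positivity
  obtain ⟨u, hu⟩ : ∃ u : ℝ, u = p.k * 1 / (p.ell + 10 / (1 - p.d) + 3) := ⟨_, rfl⟩
  have hu0 : 0 < u := by rw [hu]; positivity
  have hu1 : (p.ell + 10 / (1 - p.d) + 3) * u ≤ p.k * 1 := by rw [hu]; field_simp; exact le_rfl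
  obtain ⟨c2, hc2⟩ : ∃ c2 : ℝ, c2 = (1 - p.d) * u / 8 := ⟨_, rfl⟩
  have hc0 : 0 < c2 := by rw [hc2]; positivity
  have hc1 : c2 < (1 - p.d) * u / 4 := by
    have : 0 < (1 - p.d) * u := by positivity
    rw [hc2]; linarith
  have hdp : ∀ i, 1 ≤ ktfDp 1 u c2 i := by
    intro i
    fin_cases i <;> simp [ktfDp] <;> linarith
  -- the cores
  obtain ⟨M, Mχ0, -, c72⟩ := ktf_core_P72 h72 p hp hell (ktfDp 1 u c2) (fun i => lt_of_lt_of_le one_pos (hdp i))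
  obtain ⟨Mχ1, cW⟩ := ktf_core_wide hWd p hp hell 1 u c2 M one_pos hu0 hc0 hc1 hu1
  obtain ⟨Mχ, hMχ⟩ : ∃ Mχ : ℝ, Mχ = max (max Mχ0 Mχ1) 0 := ⟨_, rfl⟩
  have m0 : Mχ0 ≤ Mχ := hMχ ▸ (le_max_left _ _).trans (le_max_left _ _)
  have m1 : Mχ1 ≤ Mχ := hMχ ▸ (le_max_right _ _).trans (le_max_left _ _)
  have m2 : 0 ≤ Mχ := hMχ ▸ le_max_right _ _
  obtain ⟨EE1, hEE1, s72⟩ := ktf_core_seq (ktf_mono_lay p M Mχ _) (c72 Mχ m0)
  obtain ⟨EE2, hEE2, sW⟩ := ktf_core_seq (ktf_mono_cand 1 c2 c2) (cW Mχ m1)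
  -- the countably many windows
  have hwin : ∀ x : Fin 3 × ℕ × ℕ, ∃ EE : Set ℝ, EE.Countable ∧
      ∀ (Rs : KbRes) (R : ℕ → KsRef KbVer.two) (A : ∀ n, (R n).Par) (E : ∀ n, Set ((R n).L × ℝ)), KtfSeq p EE Rs R A →
        KtfSt (KtfPWin p M Mχ (ktfDp 1 u c2 x.1) (ktfB0 p 1 (ktfDp 1 u c2 x.1) x.2.1 x.2.2) (ktfB1 p 1 (ktfDp 1 u c2 x.1) x.2.1 x.2.2)) R A E →
          ∃ D c C : ℝ, 0 < c ∧ KtfEnd Rs R E D c C := by
    rintro ⟨i, j, l⟩
    obtain ⟨a1, a2, a3, a4⟩ := ktf_win_adm hk hell one_pos (hdp i) j l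
    have hs' : 0 < ktfDp 1 u c2 i := lt_of_lt_of_le one_pos (hdp i)
    obtain ⟨Mξ0, cR⟩ := ktf_core_row hRw p hp hell M _ _ _ _ Mχ hs' a1 a2 a3 a4 m2
    obtain ⟨Mξ1, hsec⟩ := h2 _ _ (hs'.trans a1) a2 (lt_of_le_of_lt a3 a4)
    obtain ⟨EE3, hEE3, sR⟩ := ktf_core_seq (ktf_mono_row _ _ _) (cR (max Mξ0 Mξ1) (le_max_left _ _))
    obtain ⟨EE4, hEE4, s2⟩ := hsec (max Mξ0 Mξ1) (le_max_right _ _)
    exact ⟨EE3 ∪ EE4, hEE3.union hEE4, fun Rs R A E hS hst =>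
      s2 Rs R A E (hS.mono Set.subset_union_right) (sR Rs R A E (hS.mono Set.subset_union_left) hst)⟩
  obtain ⟨EE3, hEE3, sWin⟩ := ktf_EE_iUnion _ (fun x EE EE' hsub h Rs R A E hS => h Rs R A E (hS.mono hsub)) hwin
  refine ⟨EE1 ∪ EE2 ∪ EE3, (hEE1.union hEE2).union hEE3, fun Rs R A E hok htilt hone hE => ?_⟩
  have hS : KtfSeq p (EE1 ∪ EE2 ∪ EE3) Rs R A := ⟨hok, htilt, hone⟩
  have st1 := s72 Rs R A E (hS.mono (Set.subset_union_left.trans Set.subset_union_left)) (ktf_st_true hS hE)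
  by_cases hw : KtfSt (KtfPWide p M Mχ (ktfDp 1 u c2)) R A E
  · exact ⟨c2, c2, 1, hc0, ktf_end_of_st hS (sW Rs R A E (hS.mono (Set.subset_union_right.trans Set.subset_union_left)) hw)⟩
  · obtain ⟨i, j, l, hst⟩ := ktf_narrow hS hk one_pos st1 hw
    obtain ⟨D, c, C, hc, hend⟩ := sWin (i, j, l) Rs R A E (hS.mono Set.subset_union_right) hst
    exact ⟨c, C, D, hc, hend⟩

/-- **HUB of the second half** (proved in `Top/Fin2.lean` from the cores of S7b-S1 (helper77), S2/S3 (helper95), Sec 8 (helper182, helper54) and the lift) -/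
def KtfHub2 : Prop :=
  KtNoBad KbVer.one → ∀ p : KpPrm, p.Ok → 0 < p.ell → ∀ B r : ℝ, 0 < r → p.ell * r < B → B < (p.k + p.ell) * r → KtfSecond p B r

/-- **Secs 7 + 8 : hubs ⟹ `KtHubFin`** -/
theorem ktf_fin (h72 : KtNoBad KbVer.one → k7a_P72K) (hWd : KtNoBad KbVer.one → k7a_WideK) (hRw : k7a_RowK) (h2 : KtfHub2) : KtHubFin :=
  fun hnb p R X hp hell hX => ks_seq_exit_tilt hp hell (ktf_tilt (h72 hnb) (hWd hnb) hRw p hp hell (h2 hnb p hp hell)) R X hX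

end

end Claimed.Agent.R252
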