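import Claimed.Agent.R252.Top.Fin
import Claimed.Agent.R252.S7b.HubH

/-!
# ROW 252 (S0492), unit TOP, file `Fin2` (integrator helper220; co-architects helper128, helper295; prefix `ktf_` / `Ktf`): THE SECOND HALF OF SECS 7 + 8 AT THE SEQUENCE LEVEL.

TARGET: `KtfHub2` of `Top/Fin.lean` : for a window `(B, r)`, `ℓ r < B < (k + ℓ) r`, a state of row lists ends in candidates (`KtfSecond p B r`).      Language: `Top/Fin.lean`, Sec. 1.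
```
 KtfPRow B r Mξ  --A (k7h_rowfit, helper77)-->  KtfPFit B r Mc Ds      (affine velocity law `K7hFit` on a dense part of a true label of depth `r`; `|λ| = |μ| q / g`)
   k > ℓ :  --C2 (k7h_child_strip_tau)-->  strip candidate at depth `r + s'`, gain `(k - ℓ) s'`,   `s' = (B - ℓ r)/k`
   k < ℓ :  --C1 + B (k7h_mu_le_tau, k7h_strip_tau)-->  strip candidate at depth `r`, gain `min ((ℓ - k) s') (B - ℓ r)`,   `s' = (B - ℓ r)/ℓ`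
   k = ℓ :  for every final tolerance `1/(m+1)` : relative depths `G'_m` (from Sec 8), `Ds_m`, `Mc_m`.     DICHOTOMY on `λ` (07 l.1001):
            some `m` : NOT `KtfSt (KtfPBig ..)`  ⟹  `KtfSt (KtfPSmall .. (1/(j+1)))`  --B (k7h_strip_tau)-->  strip candidates of gain `min (1/(j+1)) (B - ℓ r)`, ALL tolerances
            all `m`  : `KtfSt (KtfPBig ..)`  --`KtfHubMod` (D: k7h_model_tau; S2, S3: helper95)-->  `KtfPMod` (`K7Model`)  --`KtfHubS8` (K8ExitR + k7b_lift_time)-->  time candidate, depth `r + s`, gain `g`, slack `N^{1/(m+1)}`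
```
-/

set_option autoImplicit false

namespace Claimed.Agent.R252

open MeasureTheory Filter Topology
open Claimed.Agent.R255 (uf)
open scoped ENNReal BigOperators

noncomputable section

/-! ## 1. Cores at one output tolerance -/

/-- a one-scale core at ONE output tolerance `τ'`   (`KtfCore p Φ Ψ = ∀ τ' > 0, KtfCore1 p Φ Ψ τ'`) -/
def KtfCore1 (p : KpPrm) (Φ Ψ : KtfPred) (τ' : ℝ) : Prop :=
  ∃ G : KsReq, G.Ok ∧ ∃ τ : ℝ, 0 < τ ∧ ∃ N₁ : ℝ, ∀ (R : KsRef KbVer.two) (A : R.Par) (E : Set (R.L × ℝ)),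
    K7In p G τ N₁ R A E → Φ R A E (R.N ^ τ) → ∃ E' ⊆ E, KsCur R E' (R.N ^ τ') ∧ Ψ R A E' (R.N ^ τ')

theorem ktf_core1_seq {p : KpPrm} {Φ Ψ : KtfPred} {τ' : ℝ} (hc : KtfCore1 p Φ Ψ τ') :
    ∃ EE : Set ℝ, EE.Countable ∧ ∀ (Rs : KbRes) (R : ℕ → KsRef KbVer.two) (A : ∀ n, (R n).Par) (E : ∀ n, Set ((R n).L × ℝ)),
      KtfSeq p EE Rs R A → KtfSt Φ R A E → ∀ᶠ n in uf, ∃ E' ⊆ E n, KsCur (R n) E' ((R n).N ^ τ') ∧ Ψ (R n) (A n) E' ((R n).N ^ τ') := by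
  obtain ⟨G, hG, τ, hτ, N₁, h⟩ := hc
  refine ⟨ktfSupp G, ktf_supp_countable G, fun Rs R A E hS hΦ => ?_⟩
  filter_upwards [ktf_in_ev hS hG subset_rfl hτ N₁, hΦ τ hτ] with n h1 h2
  obtain ⟨E', hE', hcur, hE'Φ⟩ := h2
  obtain ⟨E'', hE'', hcur', hE''Ψ⟩ := h (R n) (A n) E' (h1 E' hcur) hE'Φ
  exact ⟨E'', hE''.trans hE', hcur', hE''Ψ⟩

/-- requirement lists: depths and the exponent of the velocity mesh -/
def ktfReqU (D : Finset ℝ) (U : ℝ) : KsReq := ⟨D, ∅, ∅, 1, U⟩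

theorem ktf_reqU_ok {D : Finset ℝ} {U : ℝ} (hne : D.Nonempty) (hD : ∀ s ∈ D, 0 < s) (hU : 0 ≤ U) : (ktfReqU D U).Ok :=
  ⟨hne, hD, fun r hr => by simp [ktfReqU] at hr, fun r hr => by simp [ktfReqU] at hr, hU, fun r hr => by simp [ktfReqU] at hr, le_rfl⟩

/-! ## 2. The predicates of Sec 7.4 -/

/-- the affine velocity law on a dense part of a true label of depth `r`; slack `K`, accuracy `K N^{-B}` -/
def KtfPFit (B r Mc : ℝ) (Ds : Finset ℝ) : KtfPred := fun R A E K =>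
  ∃ (Q : R.Lab) (ρ0 ρ1 μ : ℝ) (Cn : Set (R.L × ℝ)), R.dep Q = r ∧ K7hFit R A E Ds (kbDy (R.N ^ (-Mc))) K (K * R.N ^ (-B)) Q ρ0 ρ1 μ Cn

/-- .. with `|λ| ≥ 1/K` -/
def KtfPBig (B r Mc : ℝ) (Ds : Finset ℝ) : KtfPred := fun R A E K =>
  ∃ (Q : R.Lab) (ρ0 ρ1 μ : ℝ) (Cn : Set (R.L × ℝ)), R.dep Q = r ∧ K7hFit R A E Ds (kbDy (R.N ^ (-Mc))) K (K * R.N ^ (-B)) Q ρ0 ρ1 μ Cn ∧
    R.g Q ≤ K * (|μ| * R.q Q)

/-- .. with `|λ| ≤ N^{-x}` -/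
def KtfPSmall (B r Mc : ℝ) (Ds : Finset ℝ) (x : ℝ) : KtfPred := fun R A E K =>
  ∃ (Q : R.Lab) (ρ0 ρ1 μ : ℝ) (Cn : Set (R.L × ℝ)), R.dep Q = r ∧ K7hFit R A E Ds (kbDy (R.N ^ (-Mc))) K (K * R.N ^ (-B)) Q ρ0 ρ1 μ Cn ∧
    |μ| * R.q Q ≤ R.N ^ (-x) * R.g Q

/-- the prepared horizontal model -/
def KtfPMod (r e0 : ℝ) (G' : Finset ℝ) (M : ℝ × ℝ × ℝ) : KtfPred := fun R _ E K =>
  (K7bDat.par R e0 G' M.1 M.2.1 M.2.2).WF ∧ 1 ≤ K ∧ K7Model R E r e0 G' M K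

theorem ktf_fit_mono {R : KsRef KbVer.two} {A : R.Par} {E : Set (R.L × ℝ)} {Ds : Finset ℝ} {ξ K K' ε ε' : ℝ} {Q : R.Lab} {ρ0 ρ1 μ : ℝ}
    {Cn : Set (R.L × ℝ)} (hN : 2 ≤ R.N) (hK : K ≤ K') (hε : ε ≤ ε') (h : K7hFit R A E Ds ξ K ε Q ρ0 ρ1 μ Cn) :
    K7hFit R A E Ds ξ K' ε' Q ρ0 ρ1 μ Cn := by
  have hg : 0 ≤ R.g Q := Real.rpow_nonneg (by linarith) _
  exact
  { pos := h.pos, meas := h.meas, sub := h.sub
    mass := h.mass.trans (mul_le_mul' (ENNReal.ofReal_le_ofReal hK) le_rfl)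
    fit := fun p hp => (h.fit p hp).trans hε
    row0 := h.row0.trans (mul_le_mul_of_nonneg_right hK hg)
    row1 := h.row1.trans (mul_le_mul_of_nonneg_right hK hg)
    mu := h.mu.trans (mul_le_mul_of_nonneg_right hK hg)
    ceil := ks_dom_mono h.ceil le_rfl (fun _ _ => le_rfl) (fun _ => le_rfl) (ENNReal.ofReal_le_ofReal hK) }

theorem ktf_fit_mono' {R : KsRef KbVer.two} {A : R.Par} {E : Set (R.L × ℝ)} {Ds : Finset ℝ} {ξ K K' B : ℝ} {Q : R.Lab} {ρ0 ρ1 μ : ℝ}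
    {Cn : Set (R.L × ℝ)} (hN : 2 ≤ R.N) (hK : K ≤ K') (h : K7hFit R A E Ds ξ K (K * R.N ^ (-B)) Q ρ0 ρ1 μ Cn) :
    K7hFit R A E Ds ξ K' (K' * R.N ^ (-B)) Q ρ0 ρ1 μ Cn :=
  ktf_fit_mono hN hK (mul_le_mul_of_nonneg_right hK (Real.rpow_nonneg (by linarith) _)) h

theorem ktf_mono_fit (B r Mc : ℝ) (Ds : Finset ℝ) : KtfMono (KtfPFit B r Mc Ds) := by
  rintro R A E K K' hN hK ⟨Q, ρ0, ρ1, μ, Cn, h1, h2⟩
  exact ⟨Q, ρ0, ρ1, μ, Cn, h1, ktf_fit_mono' hN hK h2⟩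

theorem ktf_q_pos {R : KsRef KbVer.two} (Q : R.Lab) : 0 < R.q Q := by
  unfold KsRef.q kbQ
  positivity

theorem ktf_mono_big (B r Mc : ℝ) (Ds : Finset ℝ) : KtfMono (KtfPBig B r Mc Ds) := by
  rintro R A E K K' hN hK ⟨Q, ρ0, ρ1, μ, Cn, h1, h2, h3⟩
  exact ⟨Q, ρ0, ρ1, μ, Cn, h1, ktf_fit_mono' hN hK h2,
    h3.trans (mul_le_mul_of_nonneg_right hK (mul_nonneg (abs_nonneg _) (ktf_q_pos Q).le))⟩

theorem ktf_mono_small (B r Mc : ℝ) (Ds : Finset ℝ) (x : ℝ) : KtfMono (KtfPSmall B r Mc Ds x) := by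
  rintro R A E K K' hN hK ⟨Q, ρ0, ρ1, μ, Cn, h1, h2, h3⟩
  exact ⟨Q, ρ0, ρ1, μ, Cn, h1, ktf_fit_mono' hN hK h2, h3⟩

theorem ktf_mono_mod (r e0 : ℝ) (G' : Finset ℝ) (M : ℝ × ℝ × ℝ) : KtfMono (KtfPMod r e0 G' M) := by
  rintro R A E K K' _ hK ⟨hwf, hK1, X, h1, h2, h3, h4, h5⟩
  have hK0 : 0 < K := by linarith
  refine ⟨hwf, hK1.trans hK, X, h1, h2, h3, k8_ok_mono hwf hK0 hK h4, h5.sub, h5.meas, le_trans (ENNReal.ofReal_le_ofReal ?_) h5.mass⟩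
  exact one_div_le_one_div_of_le hK0 hK

/-! ## 3. The cores of helper77 in the language of states -/

theorem ktf_std_of_in {p : KpPrm} {G : KsReq} {τ N₁ : ℝ} {R : KsRef KbVer.two} {A : R.Par} {E : Set (R.L × ℝ)} (h : K7In p G τ N₁ R A E) :
    K7hStd p G τ N₁ R A E :=
  ⟨h.N, h.sup.prm, h.sup.depths, h.sup.widths, h.sup.meshes, h.sup.χ, h.ok, h.tilt, h.one, h.cur⟩

theorem ktf_rpow_split {N τ B : ℝ} (hN : 0 < N) : N ^ (τ - B) = N ^ τ * N ^ (-B) := by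
  rw [← Real.rpow_add hN]; congr 1

/-- CORE A -/
theorem ktf_core_fit (p : KpPrm) (hp : p.Ok) (hell : 0 < p.ell) (B r : ℝ) (hr : 0 < r) (hB : p.ell * r < B) (Mξ : ℝ) (hMξ : 0 ≤ Mξ) (Ds : Finset ℝ)
    (hDs : ∀ s ∈ Ds, 0 < s) (Mc : ℝ) (hMc : max Mξ B + 1 ≤ Mc) : KtfCore p (KtfPRow B r Mξ) (KtfPFit B r Mc Ds) := by
  refine ktf_core_of (ktf_mono_row _ _ _) fun τ' hτ' => ?_
  obtain ⟨G, hG, τ, hτ, N₁, h⟩ := k7h_rowfit p hp hell B r hr hB Mξ hMξ Ds hDs Mc hMc τ' hτ'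
  refine ⟨G, hG, τ, hτ, N₁, fun R A E hin hΦ => ?_⟩
  obtain ⟨Q, ρ0, ρ1, μ, Cn, h1, h2⟩ := h R A E (ktf_std_of_in hin) hΦ
  have hN : 0 < R.N := by linarith [hin.ok.N_ge]
  rw [ktf_rpow_split hN] at h2
  exact ⟨Q, ρ0, ρ1, μ, Cn, h1, h2⟩

/-- the hypotheses of the `τ`-cores of helper77 -/
theorem ktf_fitT {p : KpPrm} {B r Mc U τ N₁ : ℝ} {Ds D : Finset ℝ} (hD : Ds ⊆ D) {R : KsRef KbVer.two} {A : R.Par} {E : Set (R.L × ℝ)}
    (hin : K7In p (ktfReqU D U) τ N₁ R A E) {Q : R.Lab} {ρ0 ρ1 μ : ℝ} {Cn : Set (R.L × ℝ)} (hQ : R.dep Q = r)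
    (h : K7hFit R A E Ds (kbDy (R.N ^ (-Mc))) (R.N ^ τ) (R.N ^ τ * R.N ^ (-B)) Q ρ0 ρ1 μ Cn) :
    K7hFitT p B r Mc U τ N₁ Ds R A E Q ρ0 ρ1 μ Cn := by
  have hN : 0 < R.N := by linarith [hin.ok.N_ge]
  exact ⟨hin.N, hin.sup.prm, hin.ok, hin.tilt, hin.one, hin.cur.meas, hin.cur.sub, hD.trans hin.sup.depths, hin.sup.χ, hQ,
    by rw [ktf_rpow_split hN]; exact h⟩

/-- CORE B : `λ` power-small ⟹ strip candidates -/
theorem ktf_core_strip (p : KpPrm) (hp : p.Ok) (hell : 0 < p.ell) (B r x Mc : ℝ) (hr : 0 < r) (hB : p.ell * r < B) (hx : 0 < x) (Ds : Finset ℝ)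
    (hDs : ∀ s ∈ Ds, 0 < s) :
    KtfCore p (KtfPSmall B r Mc Ds x) (KtfPCand r (min x (B - p.ell * r)) (min x (B - p.ell * r))) := by
  classical
  refine ktf_core_of (ktf_mono_small _ _ _ _ _) fun τ' hτ' => ?_
  obtain ⟨τ, hτ, N₁, h⟩ := k7h_strip_tau p hp hell B r x Mc 0 hB hx Ds τ' hτ'
  refine ⟨ktfReqU (insert r Ds) 0, ktf_reqU_ok ⟨r, Finset.mem_insert_self _ _⟩ (fun s hs => by
    rcases Finset.mem_insert.1 hs with rfl | hs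
    · exact hr
    · exact hDs s hs) le_rfl, τ, hτ, N₁, fun R A E hin hΦ => ?_⟩
  obtain ⟨Q, ρ0, ρ1, μ, Cn, h1, h2, h3⟩ := hΦ
  have hN2 := hin.ok.N_ge
  have hg : 0 ≤ R.g Q := Real.rpow_nonneg (by linarith) _
  have := h R A E Q ρ0 ρ1 μ Cn (ktf_fitT (Finset.subset_insert _ _) hin h1 h2)
    (h3.trans (mul_le_mul_of_nonneg_right (ktf_rpow_mono hN2 (by linarith)) hg))
  exact ⟨Q, _, h1.le, le_rfl, le_rfl, Or.inr ⟨_, Cn, this⟩⟩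

/-- CORE C2 : `ℓ < k` ⟹ strip candidates at a child -/
theorem ktf_core_child (p : KpPrm) (hp : p.Ok) (hell : 0 < p.ell) (hkl : p.ell < p.k) (B r s' Mc : ℝ) (hr : 0 < r) (hB : p.ell * r < B) (hs' : 0 < s')
    (hs'B : p.k * s' ≤ B - p.ell * r) (Ds : Finset ℝ) (hDs : ∀ s ∈ Ds, 0 < s) (hm : r + s' ∈ Ds) :
    KtfCore p (KtfPFit B r Mc Ds) (KtfPCand (r + s') ((p.k - p.ell) * s') ((p.k - p.ell) * s')) := by
  refine ktf_core_of (ktf_mono_fit _ _ _ _) fun τ' hτ' => ?_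
  obtain ⟨τ, hτ, N₁, h⟩ := k7h_child_strip_tau p hp hell hkl B r s' Mc 0 hB hs' hs'B Ds hm τ' hτ'
  refine ⟨ktfReqU Ds 0, ktf_reqU_ok ⟨_, hm⟩ hDs le_rfl, τ, hτ, N₁, fun R A E hin hΦ => ?_⟩
  obtain ⟨Q, ρ0, ρ1, μ, Cn, h1, h2⟩ := hΦ
  obtain ⟨Q', ρ, Cn', e1, e2⟩ := h R A E Q ρ0 ρ1 μ Cn (ktf_fitT subset_rfl hin h1 h2)
  exact ⟨Q', _, e1.le, le_rfl, le_rfl, Or.inr ⟨ρ, Cn', e2⟩⟩

/-- CORES C1 + B : `k < ℓ` ⟹ `λ` is power-small -/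
theorem ktf_core_lt (p : KpPrm) (hp : p.Ok) (hell : 0 < p.ell) (B r s' Mc : ℝ) (hB : p.ell * r < B) (hs' : 0 < s')
    (hs'B : p.ell * s' ≤ B - p.ell * r) (hMc : p.k * s' + 1 ≤ Mc) (Ds : Finset ℝ) (hDs : ∀ s ∈ Ds, 0 < s) (hm : r + s' ∈ Ds) (x : ℝ)
    (hx : x < (p.ell - p.k) * s') : KtfCore p (KtfPFit B r Mc Ds) (KtfPSmall B r Mc Ds x) := by
  refine ktf_core_of (ktf_mono_fit _ _ _ _) fun τ' hτ' => ?_
  obtain ⟨τ, hτ, N₁, h⟩ := k7h_mu_le_tau p hp hell B r s' Mc hB hs' hs'B hMc Ds hm ((p.ell - p.k) * s' - x) (by linarith)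
  refine ⟨ktfReqU Ds 1, ktf_reqU_ok ⟨_, hm⟩ hDs zero_le_one, min τ τ', lt_min hτ hτ', N₁, fun R A E hin hΦ => ?_⟩
  obtain ⟨Q, ρ0, ρ1, μ, Cn, h1, h2⟩ := hΦ
  have hN2 := hin.ok.N_ge
  have := h R A E Q ρ0 ρ1 μ Cn (ktf_fitT subset_rfl (ktf_in_mono (min_le_left _ _) hin) h1
    (ktf_fit_mono' hN2 (ktf_rpow_mono hN2 (min_le_left _ _)) h2))
  refine ⟨Q, ρ0, ρ1, μ, Cn, h1, ktf_fit_mono' hN2 (ktf_rpow_mono hN2 (min_le_right _ _)) h2, ?_⟩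
  have e : -((p.ell - p.k) * s') + ((p.ell - p.k) * s' - x) = -x := by ring
  rwa [e] at this

/-! ## 4. The model (`k = ℓ`): helper77 (core D) + helper95 (S2, S3) -/

theorem ktf_sup_ok {G G' : KsReq} (h : G.Ok) (h' : G'.Ok) : (G.sup G').Ok := by
  classical
  refine ⟨?_, ?_, ?_, ?_, le_max_of_le_left h.U, ?_, le_max_of_le_left h.ord⟩
  · obtain ⟨s, hs⟩ := h.ne
    exact ⟨s, Finset.mem_union_left _ hs⟩
  · intro s hs
    rcases Finset.mem_union.1 hs with hs | hs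
    exacts [h.depths s hs, h'.depths s hs]
  · intro s hs
    rcases Finset.mem_union.1 hs with hs | hs
    exacts [h.widths s hs, h'.widths s hs]
  · intro s hs
    rcases Finset.mem_union.1 hs with hs | hs
    exacts [h.meshes s hs, h'.meshes s hs]
  · intro s hs
    rcases Finset.mem_union.1 hs with hs | hs
    · obtain ⟨t, ht, hst⟩ := h.deep s hs
      exact ⟨t, Finset.mem_union_left _ ht, hst⟩
    · obtain ⟨t, ht, hst⟩ := h'.deep s hs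
      exact ⟨t, Finset.mem_union_right _ ht, hst⟩

theorem ktf_sup_left {R : KsRef KbVer.two} {p : KpPrm} {G G' : KsReq} (hN : 2 ≤ R.N) (h : R.Sup p (G.sup G')) : R.Sup p G := by
  classical
  exact ⟨h.prm, Finset.subset_union_left.trans h.depths, Finset.subset_union_left.trans h.widths, Finset.subset_union_left.trans h.meshes,
    (le_max_left _ _).trans h.ord, h.χ.trans (ktf_rpow_mono hN (neg_le_neg (le_max_left _ _)))⟩

theorem ktf_sup_right {R : KsRef KbVer.two} {p : KpPrm} {G G' : KsReq} (hN : 2 ≤ R.N) (h : R.Sup p (G.sup G')) : R.Sup p G' := by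
  classical
  exact ⟨h.prm, Finset.subset_union_right.trans h.depths, Finset.subset_union_right.trans h.widths, Finset.subset_union_right.trans h.meshes,
    (le_max_right _ _).trans h.ord, h.χ.trans (ktf_rpow_mono hN (neg_le_neg (le_max_right _ _)))⟩

theorem ktf_in_left {p : KpPrm} {G G' : KsReq} {τ N₁ : ℝ} {R : KsRef KbVer.two} {A : R.Par} {E : Set (R.L × ℝ)} (h : K7In p (G.sup G') τ N₁ R A E) :
    K7In p G τ N₁ R A E := ⟨h.N, ktf_sup_left h.ok.N_ge h.sup, h.ok, h.tilt, h.one, h.cur⟩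

theorem ktf_in_right {p : KpPrm} {G G' : KsReq} {τ N₁ : ℝ} {R : KsRef KbVer.two} {A : R.Par} {E : Set (R.L × ℝ)} (h : K7In p (G.sup G') τ N₁ R A E) :
    K7In p G' τ N₁ R A E := ⟨h.N, ktf_sup_right h.ok.N_ge h.sup, h.ok, h.tilt, h.one, h.cur⟩

theorem ktf_dy_le_one {x : ℝ} (hx : 0 < x) (hx1 : x ≤ 1) : kbDy x ≤ 1 := by
  unfold kbDy
  have h : Real.logb 2 x ≤ 0 := Real.logb_nonpos (by norm_num) hx.le hx1
  have h2 : ⌈Real.logb 2 x⌉ ≤ 0 := Int.ceil_le.2 (by simpa using h)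
  exact zpow_le_one_of_nonpos₀ (by norm_num) h2

/-- the parameters of the horizontal record are well formed -/
theorem ktf_par_wf {p : KpPrm} (hp : p.Ok) {R : KsRef KbVer.two} (hR : R.prm = p) (hN : 2 ≤ R.N) {e0 : ℝ} (he0 : 0 < e0) {G' : Finset ℝ}
    (hG' : ∀ s ∈ G', 0 ≤ s) {M : ℝ × ℝ × ℝ} (h1 : 0 ≤ M.1) (h2 : 0 ≤ M.2.1) (h3 : 0 ≤ M.2.2) : (K7bDat.par R e0 G' M.1 M.2.1 M.2.2).WF := by
  have hN0 : 0 < R.N := by linarith
  have hle : ∀ m : ℝ, 0 ≤ m → kbDy (R.N ^ (-m)) ≤ 1 := fun m hm =>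
    ktf_dy_le_one (Real.rpow_pos_of_pos hN0 _) (Real.rpow_le_one_of_one_le_of_nonpos (by linarith) (by linarith))
  exact ⟨by show 1 ≤ R.N; linarith, by show 0 < R.prm.k; rw [hR]; exact hp.k_pos, by show R.prm.k ≤ 1; rw [hR]; exact hp.k_le,
    by show 0 ≤ R.prm.d; rw [hR]; exact hp.d_nonneg, by show R.prm.d < 1; rw [hR]; exact hp.d_lt, by show 0 < R.prm.S; rw [hR]; exact hp.S_pos, he0,
    ksl17_dy_pos _, hle _ h1, ksl17_dy_pos _, hle _ h2, ksl17_dy_pos _, hle _ h3, hG'⟩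

/-- CORE D + S2 + S3 : `|λ| ∼ 1`, `k = ℓ` ⟹ the prepared horizontal model -/
theorem ktf_core_mod (p : KpPrm) (hp : p.Ok) (hell : 0 < p.ell) (hkl : p.k = p.ell) (B r Mc : ℝ) (hr : 0 < r) (hB : p.ell * r < B) (hMc : B + 1 ≤ Mc)
    (G' : Finset ℝ) (h0 : (0 : ℝ) ∈ G') (hG' : ∀ s ∈ G', 0 ≤ s ∧ 4 * p.k * s ≤ B - p.ell * r) (Ds : Finset ℝ) (hDs0 : ∀ s ∈ Ds, 0 < s)
    (hDs : ∀ s ∈ G', r + s ∈ Ds) (M : ℝ × ℝ × ℝ) (hM1 : 0 ≤ M.1) (hM2 : 0 < M.2.1) (hM3 : 0 ≤ M.2.2) :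
    KtfCore p (KtfPBig B r Mc Ds) (KtfPMod r ((B - p.ell * r) / 2) G' M) := by
  refine ktf_core_of (ktf_mono_big _ _ _ _) fun τ' hτ' => ?_
  obtain ⟨G, hG, τ, hτ, N₁, h⟩ := k7_model_tau p hp hell hkl B r Mc hr hB hMc G' h0 hG' Ds hDs M hM1 hM2 hM3 τ' hτ'
  refine ⟨G.sup (ktfReqU Ds (M.2.1 + 1)), ktf_sup_ok hG (ktf_reqU_ok ⟨_, hDs 0 h0⟩ hDs0 (by linarith)), τ, hτ, N₁, fun R A E hin hΦ => ?_⟩
  obtain ⟨Q, ρ0, ρ1, μ, Cn, h1, h2, h3⟩ := hΦ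
  have hN2 := hin.ok.N_ge
  exact ⟨ktf_par_wf hp hin.sup.prm hN2 (by linarith) (fun s hs => (hG' s hs).1) hM1 hM2.le hM3,
    Real.one_le_rpow (by linarith) hτ'.le,
    h R A E Q ρ0 ρ1 μ Cn (ktf_in_left hin).sup (ktf_fitT subset_rfl (ktf_in_right hin) h1 h2) h3⟩

/-! ## 5. Sec 8 + lift -/

/-- **HUB: Sec 8 + lift** (`Top/Fin8.lean`, helper98: `K8ExitR` + adaptors `K8Adm`, `K8Inp` + `k7b_lift_time`).   Depth `s`, gain `g`, mesh threshold `M0` BEFORE the tolerance; the relative depths `G'` after it. -/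
def KtfHubS8 (p : KpPrm) (r e0 smax : ℝ) : Prop :=
  ∃ s g M0 : ℝ, 0 < s ∧ 0 < g ∧ ∀ M : ℝ × ℝ × ℝ, M0 ≤ M.1 → M0 ≤ M.2.1 → M0 ≤ M.2.2 → ∀ τ₁ : ℝ, 0 < τ₁ →
    ∃ G' : Finset ℝ, (0 : ℝ) ∈ G' ∧ (∀ σ ∈ G', 0 ≤ σ ∧ σ ≤ smax) ∧ KtfCore1 p (KtfPMod r e0 G' M) (KtfPCand (r + s) g g) τ₁

/-! ## 6. The dichotomy on `λ` -/

/-- (07 l.1001) a state of fits which is not a state of fits with `|λ| ∼ 1` is a state of fits with `|λ| ≤ N^{-1/(j+1)}` -/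
theorem ktf_lambda {p : KpPrm} {EE : Set ℝ} {Rs : KbRes} {R : ℕ → KsRef KbVer.two} {A : ∀ n, (R n).Par} {E : ∀ n, Set ((R n).L × ℝ)}
    (hS : KtfSeq p EE Rs R A) {B r Mc : ℝ} {Ds : Finset ℝ} (hF : KtfSt (KtfPFit B r Mc Ds) R A E) (hB : ¬ KtfSt (KtfPBig B r Mc Ds) R A E) :
    ∃ j : ℕ, KtfSt (KtfPSmall B r Mc Ds (1 / ((j : ℝ) + 1))) R A E := by
  have hN := ktf_two_le hS
  obtain ⟨j, hj⟩ := ktf_not_st (ktf_mono_big B r Mc Ds) hN hB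
  refine ⟨j, fun τ hτ => ?_⟩
  have hτ0 : 0 < min τ (1 / ((j : ℝ) + 1)) := lt_min hτ (by positivity)
  filter_upwards [hF _ hτ0, hj] with n hn hnj
  obtain ⟨E', hE', hcur, Q, ρ0, ρ1, μ, Cn, h1, h2⟩ := hn
  have hNn := hN n
  have hN0 : 0 < (R n).N := by linarith
  have m1 := ktf_rpow_mono hNn (min_le_left τ (1 / ((j : ℝ) + 1)))
  have m2 := ktf_rpow_mono hNn (min_le_right τ (1 / ((j : ℝ) + 1)))
  refine ⟨E', hE', ktf_cur_mono m1 hcur, Q, ρ0, ρ1, μ, Cn, h1, ktf_fit_mono' hNn m1 h2, ?_⟩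
  by_contra hcon
  refine hnj ⟨E', hE', ktf_cur_mono m2 hcur, Q, ρ0, ρ1, μ, Cn, h1, ktf_fit_mono' hNn m2 h2, ?_⟩
  have h3 := (not_le.1 hcon).le
  rw [Real.rpow_neg hN0.le] at h3
  have hpos := Real.rpow_pos_of_pos hN0 (1 / ((j : ℝ) + 1))
  rw [inv_mul_le_iff₀ hpos] at h3
  exact h3

/-! ## 7. The second half -/

/-- a state of candidates ends the argument -/
theorem ktf_second_of_core {p : KpPrm} {B r : ℝ} (Mξ1 : ℝ) {D c : ℝ} (hc : 0 < c)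
    (h : ∀ Mξ : ℝ, Mξ1 ≤ Mξ → ∃ Φ : KtfPred, KtfMono Φ ∧ KtfCore p (KtfPRow B r Mξ) Φ ∧ KtfCore p Φ (KtfPCand D c c)) : KtfSecond p B r := by
  refine ⟨Mξ1, fun Mξ hMξ => ?_⟩
  obtain ⟨Φ, hΦ, c1, c2⟩ := h Mξ hMξ
  obtain ⟨EE1, hEE1, s1⟩ := ktf_core_seq hΦ c1
  obtain ⟨EE2, hEE2, s2⟩ := ktf_core_seq (ktf_mono_cand D c c) c2
  exact ⟨EE1 ∪ EE2, hEE1.union hEE2, fun Rs R A E hS hst => ⟨D, c, c, hc,
    ktf_end_of_st hS (s2 Rs R A E (hS.mono Set.subset_union_right) (s1 Rs R A E (hS.mono Set.subset_union_left) hst))⟩⟩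

/-- composition of cores -/
theorem ktf_core_trans {p : KpPrm} {Φ Ψ Θ : KtfPred} (hΦ : KtfMono Φ) (h1 : KtfCore p Φ Ψ) (h2 : KtfCore p Ψ Θ) : KtfCore p Φ Θ := by
  intro τ' hτ'
  obtain ⟨G2, hG2, τ2, hτ2, N2, H2⟩ := h2 τ' hτ'
  obtain ⟨G1, hG1, τ1, hτ1, N1, H1⟩ := h1 τ2 hτ2
  refine ⟨G1.sup G2, ktf_sup_ok hG1 hG2, min τ1 τ2, lt_min hτ1 hτ2, max N1 N2, fun R A E hin hΦ' => ?_⟩
  have hN2 := hin.ok.N_ge
  have i1 : K7In p G1 τ1 N1 R A E := by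
    have := ktf_in_mono (min_le_left τ1 τ2) (ktf_in_left hin)
    exact ⟨(le_max_left _ _).trans this.N, this.sup, this.ok, this.tilt, this.one, this.cur⟩
  obtain ⟨E', hE', hcur, hΨ⟩ := H1 R A E i1 (hΦ _ _ _ _ _ hN2 (ktf_rpow_mono hN2 (min_le_left _ _)) hΦ')
  have i2 : K7In p G2 τ2 N2 R A E' := by
    have := ktf_in_mono (min_le_right τ1 τ2) (ktf_in_right hin)
    exact ⟨(le_max_right _ _).trans this.N, this.sup, this.ok, this.tilt, this.one, hcur⟩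
  obtain ⟨E'', hE'', hcur', hΘ⟩ := H2 R A E' i2 hΨ
  exact ⟨E'', hE''.trans hE', hcur', hΘ⟩

/-- `ℓ < k` -/
theorem ktf_second_gt (p : KpPrm) (hp : p.Ok) (hell : 0 < p.ell) (hkl : p.ell < p.k) (B r : ℝ) (hr : 0 < r) (hB : p.ell * r < B) : KtfSecond p B r := by
  have hk := hp.k_pos
  have hs' : 0 < (B - p.ell * r) / p.k := div_pos (by linarith) hk
  have hs'B : p.k * ((B - p.ell * r) / p.k) ≤ B - p.ell * r := by rw [mul_div_cancel₀ _ hk.ne']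
  have hDs : ∀ s ∈ ({r + (B - p.ell * r) / p.k} : Finset ℝ), 0 < s := fun s hs => by rw [Finset.mem_singleton.1 hs]; linarith
  refine ktf_second_of_core 0 (mul_pos (sub_pos.2 hkl) hs') fun Mξ hMξ => ⟨_, ktf_mono_fit B r (max Mξ B + 1) {r + (B - p.ell * r) / p.k},
    ktf_core_fit p hp hell B r hr hB Mξ hMξ _ hDs _ le_rfl,
    ktf_core_child p hp hell hkl B r _ _ hr hB hs' hs'B _ hDs (Finset.mem_singleton_self _)⟩

/-- `k < ℓ` -/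
theorem ktf_second_lt (p : KpPrm) (hp : p.Ok) (hell : 0 < p.ell) (hkl : p.k < p.ell) (B r : ℝ) (hr : 0 < r) (hB : p.ell * r < B) : KtfSecond p B r := by
  have hs' : 0 < (B - p.ell * r) / p.ell := div_pos (by linarith) hell
  have hs'B : p.ell * ((B - p.ell * r) / p.ell) ≤ B - p.ell * r := by rw [mul_div_cancel₀ _ hell.ne']
  have hDs : ∀ s ∈ ({r + (B - p.ell * r) / p.ell} : Finset ℝ), 0 < s := fun s hs => by rw [Finset.mem_singleton.1 hs]; linarith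
  have hx : 0 < (p.ell - p.k) * ((B - p.ell * r) / p.ell) := mul_pos (sub_pos.2 hkl) hs'
  refine ktf_second_of_core 0 (lt_min (half_pos hx) (by linarith : 0 < B - p.ell * r)) fun Mξ hMξ =>
    ⟨_, ktf_mono_small B r (max (max Mξ B + 1) (p.k * ((B - p.ell * r) / p.ell) + 1)) {r + (B - p.ell * r) / p.ell}
        ((p.ell - p.k) * ((B - p.ell * r) / p.ell) / 2),
      ktf_core_trans (ktf_mono_row _ _ _) (ktf_core_fit p hp hell B r hr hB Mξ hMξ _ hDs _ (le_max_left _ _))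
        (ktf_core_lt p hp hell B r _ _ hB hs' hs'B (le_max_right _ _) _ hDs (Finset.mem_singleton_self _) _ (half_lt_self hx)),
      ktf_core_strip p hp hell B r _ _ hr hB (half_pos hx) _ hDs⟩

/-- `k = ℓ` -/
theorem ktf_second_eq (p : KpPrm) (hp : p.Ok) (hell : 0 < p.ell) (hkl : p.k = p.ell) (B r : ℝ) (hr : 0 < r) (hB : p.ell * r < B)
    (h8 : KtfHubS8 p r ((B - p.ell * r) / 2) ((B - p.ell * r) / (4 * p.k))) : KtfSecond p B r := by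
  classical
  have hk := hp.k_pos
  obtain ⟨s, g, M0, hs, hg, h8⟩ := h8
  -- the meshes of the horizontal record
  obtain ⟨m0, hm0⟩ : ∃ m0 : ℝ, m0 = max M0 1 := ⟨_, rfl⟩
  have hm0M : M0 ≤ m0 := hm0 ▸ le_max_left _ _
  have hm01 : 1 ≤ m0 := hm0 ▸ le_max_right _ _
  choose G' hG0 hG' c8 using fun m : ℕ => h8 (m0, m0, m0) hm0M hm0M hm0M (1 / ((m : ℝ) + 1)) (by positivity)
  have hG'' : ∀ m, ∀ σ ∈ G' m, 0 ≤ σ ∧ 4 * p.k * σ ≤ B - p.ell * r := fun m σ hσ => by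
    refine ⟨(hG' m σ hσ).1, ?_⟩
    have := (hG' m σ hσ).2
    rwa [le_div_iff₀ (by positivity), mul_comm] at this
  refine ⟨0, fun Mξ hMξ => ?_⟩
  -- the depths kept in the ceilings, the mesh of the cells
  have hDs0 : ∀ m, ∀ x ∈ (G' m).image (fun σ => r + σ), 0 < x := fun m x hx => by
    obtain ⟨σ, hσ, rfl⟩ := Finset.mem_image.1 hx
    linarith [(hG' m σ hσ).1]
  have hDs : ∀ m, ∀ σ ∈ G' m, r + σ ∈ (G' m).image (fun σ => r + σ) := fun m σ hσ => Finset.mem_image_of_mem _ hσ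
  have hMc : B + 1 ≤ max Mξ B + 1 := by linarith [le_max_right Mξ B]
  -- the sequence-level statements
  have sA := fun m : ℕ => ktf_core_seq (ktf_mono_fit B r (max Mξ B + 1) ((G' m).image (fun σ => r + σ)))
    (ktf_core_fit p hp hell B r hr hB Mξ hMξ _ (hDs0 m) _ le_rfl)
  have sD := fun m : ℕ => ktf_core_seq (ktf_mono_mod r ((B - p.ell * r) / 2) (G' m) (m0, m0, m0))
    (ktf_core_mod p hp hell hkl B r _ hr hB hMc (G' m) (hG0 m) (hG'' m) _ (hDs0 m) (hDs m) (m0, m0, m0) (by show 0 ≤ m0; linarith)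
      (by show 0 < m0; linarith) (by show 0 ≤ m0; linarith))
  have s8 := fun m : ℕ => ktf_core1_seq (c8 m)
  have sB := fun x : ℕ × ℕ => ktf_core_seq (ktf_mono_cand r (min (1 / ((x.2 : ℝ) + 1)) (B - p.ell * r)) (min (1 / ((x.2 : ℝ) + 1)) (B - p.ell * r)))
    (ktf_core_strip p hp hell B r (1 / ((x.2 : ℝ) + 1)) (max Mξ B + 1) hr hB (by positivity) _ (hDs0 x.1))
  obtain ⟨EA, hEA, sA⟩ := ktf_EE_iUnion _ (fun m EE EE' hsub h Rs R A E hS => h Rs R A E (hS.mono hsub)) sA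
  obtain ⟨ED, hED, sD⟩ := ktf_EE_iUnion _ (fun m EE EE' hsub h Rs R A E hS => h Rs R A E (hS.mono hsub)) sD
  obtain ⟨E8, hE8, s8⟩ := ktf_EE_iUnion _ (fun m EE EE' hsub h Rs R A E hS => h Rs R A E (hS.mono hsub)) s8
  obtain ⟨EB, hEB, sB⟩ := ktf_EE_iUnion _ (fun m EE EE' hsub h Rs R A E hS => h Rs R A E (hS.mono hsub)) sB
  refine ⟨EA ∪ ED ∪ (E8 ∪ EB), (hEA.union hED).union (hE8.union hEB), fun Rs R A E hS hst => ?_⟩
  have hSA := hS.mono (Set.subset_union_left.trans Set.subset_union_left : EA ⊆ EA ∪ ED ∪ (E8 ∪ EB))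
  have hSD := hS.mono (Set.subset_union_right.trans Set.subset_union_left : ED ⊆ EA ∪ ED ∪ (E8 ∪ EB))
  have hS8 := hS.mono (Set.subset_union_left.trans Set.subset_union_right : E8 ⊆ EA ∪ ED ∪ (E8 ∪ EB))
  have hSB := hS.mono (Set.subset_union_right.trans Set.subset_union_right : EB ⊆ EA ∪ ED ∪ (E8 ∪ EB))
  by_cases hbig : ∀ m : ℕ, KtfSt (KtfPBig B r (max Mξ B + 1) ((G' m).image (fun σ => r + σ))) R A E
  · -- the model at every tolerance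
    refine ⟨r + s, g, g, hg, fun τ₁ hτ₁ => ?_⟩
    obtain ⟨m, hm⟩ := ktf_exists_nat hτ₁
    filter_upwards [s8 m Rs R A E hS8 (sD m Rs R A E hSD (hbig m))] with n hn
    obtain ⟨E', hE', -, hc⟩ := hn
    rw [← hS.ok.N n]
    exact ktf_cand_mono (ktf_two_le hS n) hE' le_rfl le_rfl le_rfl (ktf_rpow_mono (ktf_two_le hS n) hm) hc
  · -- `λ` is power-small
    simp only [not_forall] at hbig
    obtain ⟨m, hm⟩ := hbig
    obtain ⟨j, hj⟩ := ktf_lambda hS (sA m Rs R A E hSA hst) hm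
    exact ⟨r, _, _, lt_min (by positivity) (by linarith), ktf_end_of_st hS (sB (m, j) Rs R A E hSB hj)⟩

/-- **the second half from the hub of Sec 8** -/
theorem ktf_second (p : KpPrm) (hp : p.Ok) (hell : 0 < p.ell) (B r : ℝ) (hr : 0 < r) (hB : p.ell * r < B)
    (h8 : p.k = p.ell → KtfHubS8 p r ((B - p.ell * r) / 2) ((B - p.ell * r) / (4 * p.k))) : KtfSecond p B r := by
  rcases lt_trichotomy p.k p.ell with h | h | h
  · exact ktf_second_lt p hp hell h B r hr hB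
  · exact ktf_second_eq p hp hell h B r hr hB (h8 h)
  · exact ktf_second_gt p hp hell h B r hr hB

/-- **`KtfHub2` from the hub of Sec 8** (for `Top/Final.lean`) -/
theorem ktf_hub2 (h8 : KtNoBad KbVer.one → ∀ p : KpPrm, p.Ok → p.k = p.ell → ∀ r e0 smax : ℝ, 0 < r → 0 < e0 → 0 < smax → KtfHubS8 p r e0 smax) :
    KtfHub2 :=
  fun hnb p hp hell B r hr hB _ => ktf_second p hp hell B r hr hB fun hkl =>
    h8 hnb p hp hkl r _ _ hr (by linarith) (div_pos (by linarith) (by linarith [hp.k_pos]))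

/-- **Secs 7 + 8** : everything above the one-scale cores is PROVED.   Open inputs: `k7a_P72K`, `k7a_WideK`, `k7a_RowK` (S7a, S7p), the theorems `k7h_*` (S7b-S1), `k7_model_tau` (S7b), and the hub of Sec 8. -/
theorem ktf_fin2 (h72 : KtNoBad KbVer.one → k7a_P72K) (hWd : KtNoBad KbVer.one → k7a_WideK) (hRw : k7a_RowK)
    (h8 : KtNoBad KbVer.one → ∀ p : KpPrm, p.Ok → p.k = p.ell → ∀ r e0 smax : ℝ, 0 < r → 0 < e0 → 0 < smax → KtfHubS8 p r e0 smax) : KtHubFin :=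
  ktf_fin h72 hWd hRw (ktf_hub2 h8)

end

end Claimed.Agent.R252
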