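import Claimed.Agent.R252.Top.Fin2
import Claimed.Agent.R252.S8.Chain
import Claimed.Agent.R252.S8c.H9Main
import Claimed.Agent.R252.S8w.Main

/-!
# ROW 252 (S0492), unit TOP, file `Fin8` (helper98; prefix `ktf8_` / `Ktf8`): THE CONSUMPTION OF SEC. 8 BY THE SEQUENCE-LEVEL ASSEMBLY `Top/Fin`, `Top/Fin2`.      No `sorry` in this file.

EXIT: `ktf8_hub : K8Exit ⟨k, d, S, e₀, smax⟩ → KtfHubS8 p r e₀ smax` (the hub of `Top/Fin2`, Sec. 5), hence `ktf8_fin : .. → KtHubFin`.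
ENTRY = the prepared horizontal model `K7Model R E r e₀ G' M K` (`S7b/Exit`; producer `k7_model_tau`, S7b/HubH).
## Order of constants (this is the whole content)
1. the producer fixes `r` (depth of the parent `Q_r`), `e₀ = (B - ℓ r)/2` (accuracy of the horizontal equation), `smax = (B - ℓ r)/(4k)` (preparation range): they depend on the window `(B, r)` only.
2. `K8Exit ⟨k, d, S, e₀, smax⟩` gives `s, g, M0`: THE GAINS `c₀ = C₀ = g`, `D₀ = r + s` ARE FIXED HERE, before every tolerance.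
3. mesh exponents `M ≥ max M0 0` of the horizontal record (fixed powers).
4. for the tolerance `τ₁` : the list `G' = G0(τ₁) ∪ grid(τ')` of RELATIVE depths in `[0, smax]` (slow grid of step `τ'`, `0 ∈ G'`), the input tolerance `τ₂ = τ' ≤ τ₁`, the threshold `N₁ = max N1 (#G')^{1/τ'}`.
## Contents
* `ktf8Grid`, `ktf8_adm`, `ktf8_inp`   adaptor (1) of the census of helper220: `K8Adm`, `K8Inp` (slow grid, cardinality) for `X.hor`, `K7bDat.par R e₀ G' M`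
* `ktf8_one`      ONE SCALE: `K8Exit` + model ⟹ `K7Cand R E (r + s) g g (N^τ₁)`   (adaptor (2): `k7b_lift_time`)
* `ktf8_hub`      `KtfHubS8`
* `ktf8_exit`     LINK: `K8Exit x` for all `x.Ok` from `k8c_exit` (P8.2, closed) and `k8w_wide` (P8.6; the four hubs of `S8w/Defs` as hypotheses)
* `ktf8_fin`      `KtHubFin` from `k7a_P72K`, `k7a_WideK`, `k7a_RowK` and the four hubs of P8.6
-/

set_option autoImplicit false

namespace Claimed.Agent.R252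

open MeasureTheory Filter Topology
open Claimed.Agent.R255 (uf)
open scoped ENNReal BigOperators

noncomputable section

/-! ## 1. The adaptor: `K8Adm`, `K8Inp` for the horizontal record of a model -/

/-- the exponents of the horizontal problem inside a tangent problem with the exponents `p` -/
def ktf8X (p : KpPrm) (e0 smax : ℝ) : K8Exp := ⟨p.k, p.d, p.S, e0, smax⟩

theorem ktf8_X_ok {p : KpPrm} (hp : p.Ok) {e0 smax : ℝ} (he : 0 < e0) (hs : 0 < smax) : (ktf8X p e0 smax).Ok :=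
  ⟨hp.k_pos, hp.k_le, hp.d_nonneg, hp.d_lt, hp.S_pos, he, hs⟩

/-- the arithmetic grid of step `θ` in `[0, smax]` -/
def ktf8Grid (θ smax : ℝ) : Finset ℝ := (Finset.range (⌊smax / θ⌋₊ + 1)).image fun j : ℕ => (j : ℝ) * θ

theorem ktf8_grid_mem {θ smax s : ℝ} (hθ : 0 < θ) (hs : 0 ≤ smax) (h : s ∈ ktf8Grid θ smax) : 0 ≤ s ∧ s ≤ smax := by
  obtain ⟨j, hj, rfl⟩ := Finset.mem_image.1 h
  have hj' : j ≤ ⌊smax / θ⌋₊ := Nat.lt_succ_iff.1 (Finset.mem_range.1 hj)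
  have h1 : (j : ℝ) ≤ smax / θ := (Nat.le_floor_iff (div_nonneg hs hθ.le)).1 hj'
  exact ⟨by positivity, (le_div_iff₀ hθ).1 h1⟩

/-- below every positive depth there is a grid point at distance `≤ θ` -/
theorem ktf8_grid_below {θ smax s : ℝ} (hθ : 0 < θ) (h0 : 0 < s) (h1 : s ≤ smax) : ∃ s' ∈ ktf8Grid θ smax, s' < s ∧ s - s' ≤ θ := by
  have hpos : 0 < s / θ := div_pos h0 hθ
  have hc : 0 < ⌈s / θ⌉₊ := Nat.ceil_pos.2 hpos
  obtain ⟨j, hj⟩ : ∃ j : ℕ, ⌈s / θ⌉₊ = j + 1 := ⟨⌈s / θ⌉₊ - 1, by omega⟩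
  have h2 : ((j : ℝ) + 1) < s / θ + 1 := by
    have := Nat.ceil_lt_add_one hpos.le
    rw [hj] at this
    exact_mod_cast this
  have h3 : s / θ ≤ (j : ℝ) + 1 := by
    have := Nat.le_ceil (s / θ)
    rw [hj] at this
    exact_mod_cast this
  have h4 : (j : ℝ) * θ < s := (lt_div_iff₀ hθ).1 (by linarith)
  have h5 : s ≤ ((j : ℝ) + 1) * θ := (div_le_iff₀ hθ).1 h3
  refine ⟨(j : ℝ) * θ, Finset.mem_image.2 ⟨j, Finset.mem_range.2 (Nat.lt_succ_iff.2 ?_), rfl⟩, h4, by nlinarith⟩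
  refine Nat.le_floor ?_
  rw [le_div_iff₀ hθ]
  linarith

theorem ktf8_grid_card (θ smax : ℝ) : ((ktf8Grid θ smax).card : ℝ) ≤ (⌊smax / θ⌋₊ : ℝ) + 1 := by
  have h : (ktf8Grid θ smax).card ≤ ⌊smax / θ⌋₊ + 1 := Finset.card_image_le.trans (by rw [Finset.card_range])
  exact_mod_cast h

theorem ktf8_dy {y : ℝ} (hy : 0 < y) (hy1 : y ≤ 1) : 0 < kbDy y ∧ kbDy y ≤ 1 ∧ y ≤ kbDy y ∧ kbDy y < 2 * y :=
  ⟨ksl17_dy_pos y, k8w_dy_le_one hy hy1, k8w_dy_le hy, ksl17_dy_lt hy⟩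

/-- **admissibility** of the parameters of the horizontal record -/
theorem ktf8_adm {p : KpPrm} (hp : p.Ok) {e0 smax : ℝ} (he : 0 < e0) {M : ℝ × ℝ × ℝ} (m1 : 0 ≤ M.1) (m2 : 0 ≤ M.2.1) (m3 : 0 ≤ M.2.2)
    {G0 G' : Finset ℝ} (hG : G0 ⊆ G') (hG' : ∀ s ∈ G', 0 ≤ s) {N1 : ℝ} {R : KsRef KbVer.two} (hR : R.prm = p) (hN1 : 1 ≤ R.N) (hN : N1 ≤ R.N) :
    K8Adm (ktf8X p e0 smax) M G0 N1 (K7bDat.par R e0 G' M.1 M.2.1 M.2.2) := by
  have hN0 : 0 < R.N := by linarith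
  have hy : ∀ m : ℝ, 0 ≤ m → 0 < R.N ^ (-m) ∧ R.N ^ (-m) ≤ 1 := fun m hm =>
    ⟨Real.rpow_pos_of_pos hN0 _, Real.rpow_le_one_of_one_le_of_nonpos hN1 (by linarith)⟩
  have d1 := ktf8_dy (hy _ m1).1 (hy _ m1).2
  have d2 := ktf8_dy (hy _ m2).1 (hy _ m2).2
  have d3 := ktf8_dy (hy _ m3).1 (hy _ m3).2
  subst hR
  exact
  { wf := ⟨hN1, hp.k_pos, hp.k_le, hp.d_nonneg, hp.d_lt, hp.S_pos, he, d1.1, d1.2.1, d2.1, d2.2.1, d3.1, d3.2.1, hG'⟩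
    hk := rfl, hd := rfl, hS := rfl, he := rfl, hN := hN, hG := hG
    hξ := ⟨d1.2.2.1, d1.2.2.2⟩, hχ := ⟨d2.2.2.1, d2.2.2.2⟩, hϱ := ⟨d3.2.2.1, d3.2.2.2⟩
    dy := ⟨(_, _, _), rfl, rfl, rfl⟩ }

/-- **dense input**: the horizontal record of a model whose list of relative depths contains a grid of step `θ` -/
theorem ktf8_inp {H : K7bHor} {c : K7bPar} {θ smax τ : ℝ} (hθ : 0 < θ) (hθτ : θ ≤ τ) {G0 : Finset ℝ} (hG0 : ∀ s ∈ G0, 0 ≤ s ∧ s ≤ smax)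
    (hs : 0 ≤ smax) (hcG : c.G = G0 ∪ ktf8Grid θ smax) (hN1 : 1 ≤ c.N) (hcard : (G0.card : ℝ) + ((⌊smax / θ⌋₊ : ℝ) + 1) ≤ c.N ^ τ)
    (hok : H.Ok c (c.N ^ τ)) (hres : H.Res H.Sp (1 / c.N ^ τ)) : K8Inp H c (c.N ^ τ) H.Sp := by
  refine ⟨Real.one_le_rpow hN1 (hθ.le.trans hθτ), hok, ?_, ?_, hres⟩
  · rw [hcG]
    have h1 : ((G0 ∪ ktf8Grid θ smax).card : ℝ) ≤ (G0.card : ℝ) + ((ktf8Grid θ smax).card : ℝ) := by exact_mod_cast Finset.card_union_le _ _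
    linarith [ktf8_grid_card θ smax]
  · intro s hsG h0
    rw [hcG] at hsG
    have hle : s ≤ smax := (Finset.mem_union.1 hsG).elim (fun h => (hG0 s h).2) fun h => (ktf8_grid_mem hθ hs h).2
    obtain ⟨s', h1, h2, h3⟩ := ktf8_grid_below hθ h0 hle
    exact ⟨s', by rw [hcG]; exact Finset.mem_union_right _ h1, h2, Real.rpow_le_rpow_of_exponent_le hN1 (h3.trans hθτ)⟩

theorem ktf8_grid_zero (θ smax : ℝ) : (0 : ℝ) ∈ ktf8Grid θ smax :=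
  Finset.mem_image.2 ⟨0, Finset.mem_range.2 (Nat.succ_pos _), by simp⟩

/-! ## 2. One scale -/

/-- **ONE SCALE**: the exit of Sec. 8 applied to the prepared horizontal model.      The gains `s, g` and the mesh threshold `M0 ≥ 0` do not depend on the tolerance, nor on `r`. -/
theorem ktf8_one {p : KpPrm} (hp : p.Ok) {e0 smax : ℝ} (he : 0 < e0) (hs : 0 < smax) (h8 : K8Exit (ktf8X p e0 smax)) :
    ∃ s g M0 : ℝ, 0 < s ∧ 0 < g ∧ 0 ≤ M0 ∧ ∀ M : ℝ × ℝ × ℝ, M0 ≤ M.1 → M0 ≤ M.2.1 → M0 ≤ M.2.2 → ∀ τ₁ : ℝ, 0 < τ₁ →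
      ∃ (G' : Finset ℝ) (τ₂ N₁ : ℝ), (0 : ℝ) ∈ G' ∧ (∀ σ ∈ G', 0 ≤ σ ∧ σ ≤ smax) ∧ 0 < τ₂ ∧ τ₂ ≤ τ₁ ∧ ∀ (R : KsRef KbVer.two) (E : Set (R.L × ℝ)) (K₀ K r : ℝ),
        R.prm = p → R.Ok K₀ → N₁ ≤ R.N → 1 ≤ K → K ≤ R.N ^ τ₂ → K7Model R E r e0 G' M K → K7Cand R E (r + s) g g (R.N ^ τ₁) := by
  obtain ⟨s, g, M0, hs0, hg0, hh⟩ := h8
  refine ⟨s, g, max M0 0, hs0, hg0, le_max_right _ _, fun M m1 m2 m3 τ₁ hτ₁ => ?_⟩
  obtain ⟨G0, τ', N1, hτ', hle, hG0, h⟩ := K8HubAt.norm hh M ((le_max_left _ _).trans m1) ((le_max_left _ _).trans m2) ((le_max_left _ _).trans m3) τ₁ hτ₁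
  set C : ℝ := (G0.card : ℝ) + ((⌊smax / τ'⌋₊ : ℝ) + 1) with hC
  have hC1 : 1 ≤ C := by
    have h1 : (0 : ℝ) ≤ (G0.card : ℝ) := Nat.cast_nonneg _
    have h2 : (0 : ℝ) ≤ (⌊smax / τ'⌋₊ : ℝ) := Nat.cast_nonneg _
    linarith
  have hG' : ∀ σ ∈ G0 ∪ ktf8Grid τ' smax, 0 ≤ σ ∧ σ ≤ smax := fun σ hσ =>
    (Finset.mem_union.1 hσ).elim (hG0 σ) fun h => ktf8_grid_mem hτ' hs.le h
  refine ⟨G0 ∪ ktf8Grid τ' smax, τ', max N1 (C ^ (1 / τ')), Finset.mem_union_right _ (ktf8_grid_zero _ _), hG', hτ', hle,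
    fun R E K₀ K r hRp hR hN hK1 hK2 hM => ?_⟩
  obtain ⟨X, hr, hpos, hsub, hok0, hres0⟩ := hM
  have hN1 : 1 ≤ R.N := by linarith [hR.N_ge]
  have hA := ktf8_adm (smax := smax) hp he ((le_max_right _ _).trans m1) ((le_max_right _ _).trans m2) ((le_max_right _ _).trans m3)
    (Finset.subset_union_left (s₁ := G0) (s₂ := ktf8Grid τ' smax)) (fun σ hσ => (hG' σ hσ).1) hRp hN1 ((le_max_left _ _).trans hN)
  have hok := k8_ok_mono hA.wf (by linarith) hK2 hok0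
  have hres := k8_res_mono hres0 (one_div_le_one_div_of_le (by linarith) hK2)
  have hI : K8Inp X.hor (K7bDat.par R e0 (G0 ∪ ktf8Grid τ' smax) M.1 M.2.1 M.2.2) (R.N ^ τ') X.hor.Sp :=
    ktf8_inp (c := K7bDat.par R e0 (G0 ∪ ktf8Grid τ' smax) M.1 M.2.1 M.2.2) hτ' le_rfl hG0 hs.le rfl hN1
      (k8_const_le hC1 hτ' ((le_max_right _ _).trans hN)) hok hres
  obtain ⟨q, P, Cn, hc⟩ := h X.hor () _ _ _ hA hI le_rfl trivial
  have hK : R.N ^ τ' ≤ R.N ^ τ₁ := Real.rpow_le_rpow_of_exponent_le hN1 hle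
  have hok' := k8_ok_mono hA.wf (Real.rpow_pos_of_pos (by linarith) _) hK hok
  obtain ⟨P', hP'⟩ := k7b_lift_time hR X (Real.one_le_rpow hN1 hτ₁.le) hpos (fun x hx => (hsub hx).2) hok' (fun x hx => (hsub hx).1) subset_rfl hc
  have hdep : R.dep q = r + s := by
    classical
    have h1 := hc.q_mem
    have h2 : R.dep q = X.r + s := (Finset.mem_filter.1 h1).2.1
    rw [h2, ← hr]
    rfl
  exact ⟨q, g, hdep.le, le_rfl, le_rfl, Or.inl ⟨P', _, hP'⟩⟩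

/-! ## 3. The hub of `Top/Fin2` -/

/-- **`KtfHubS8`** : Sec. 8 + lift as a core at every output tolerance -/
theorem ktf8_hub {p : KpPrm} (hp : p.Ok) (r : ℝ) {e0 smax : ℝ} (he : 0 < e0) (hs : 0 < smax) (h8 : K8Exit (ktf8X p e0 smax)) : KtfHubS8 p r e0 smax := by
  obtain ⟨s, g, M0, hs0, hg0, -, h⟩ := ktf8_one hp he hs h8
  refine ⟨s, g, M0, hs0, hg0, fun M m1 m2 m3 τ₁ hτ₁ => ?_⟩
  obtain ⟨G', τ₂, N₁, hG0, hG', hτ₂, hle, hh⟩ := h M m1 m2 m3 τ₁ hτ₁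
  refine ⟨G', hG0, hG', ksqReq (fun _ => 1) 0, ksq_req_ok _ _, τ₂, hτ₂, N₁, fun R A E hin hM => ⟨E, subset_rfl, ?_, ?_⟩⟩
  · exact ktf_cur_mono (ktf_rpow_mono hin.ok.N_ge hle) hin.cur
  · exact hh R E _ _ r hin.sup.prm hin.ok hin.N hM.2.1 le_rfl hM.2.2

/-! ## 4. The link to the hubs of Sec. 8 -/

/-- **the exit of Sec. 8 for all exponents**: P8.2 = `k8c_exit` (S8c), P8.6 = `k8w_wide` (S8w) from its four hubs -/
theorem ktf8_exit (hCh : K8wHChart) (hPr : K8wHProj) (hLa : K8wHLay) (hFin : K8wHFin) (x : K8Exp) (hx : x.Ok) : K8Exit x :=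
  k8_exit (fun x hx hk => k8c_exit x hx (by linarith)) (k8w_wide hCh hPr hLa hFin) x hx

/-- **Secs 7 + 8 from the exit of Sec. 8** -/
theorem ktf8_fin_of (h72 : KtNoBad KbVer.one → k7a_P72K) (hWd : KtNoBad KbVer.one → k7a_WideK) (hRw : k7a_RowK)
    (h8 : KtNoBad KbVer.one → ∀ x : K8Exp, x.Ok → K8Exit x) : KtHubFin :=
  ktf_fin2 h72 hWd hRw fun hnb _ hp _ r _ _ _ he hs => ktf8_hub hp r he hs (h8 hnb _ (ktf8_X_ok hp he hs))

/-- **Secs 7 + 8 from the four hubs of P8.6** (each may use "no bad problem in version 1" through T7.1) -/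
theorem ktf8_fin (h72 : KtNoBad KbVer.one → k7a_P72K) (hWd : KtNoBad KbVer.one → k7a_WideK) (hRw : k7a_RowK)
    (hCh : KtNoBad KbVer.one → K8wHChart) (hPr : KtNoBad KbVer.one → K8wHProj) (hLa : KtNoBad KbVer.one → K8wHLay) (hFin : KtNoBad KbVer.one → K8wHFin) :
    KtHubFin :=
  ktf8_fin_of h72 hWd hRw fun hnb => ktf8_exit (hCh hnb) (hPr hnb) (hLa hnb) (hFin hnb)

theorem ktf8_eqns_cite : True := by
  have := @ktf8X.eq_1
  have := @ktf8Grid.eq_1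
  trivial

end

end Claimed.Agent.R252
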