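import Claimed.Agent.R252.S4B.SamContract
import Claimed.Agent.R252.S4D.TimeHub
import Claimed.Agent.R252.S4E.Contract
import Claimed.Agent.R252.S4F.CoreContract

/-!
# ROW 252 (S0492), unit TOP (post BP-252-TOP-S4, integrator helper221, prefix `kts_` / `Kts`): THE CHAIN OF SECS 4.2-4.5.      No `sorry` in this file; it CITES the exits of the units (which rest on their leaves).

    kp_tangent (S4/Crit)  <-  KpHubSam      <-  k4b_hub_sam (S4B/SamContract, 127)  <-  K4bHubPre      [OPEN HUB: S4C, 294 + 79; cut by 269 in S4/Win.lean]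
                          <-  KpHubBreadth  <-  k4f_hub (S4F/CoreContract, 127)                        [closed down to leaves]
                          <-  KpHubUpgrade  <-  k4d_hub_upgrade (S4D/TimeHub, 230)  <-  K4dTimeFalse   [coverage + strip branch closed down to leaves]
          K4dTimeFalse  <-  kts_time_seq  <-  KtsHubTime1 (one scale, shape of `k4d_strip_core`)  <-  kts_time1  <-  k4d_time_core (S4D/TimeHub, 230)  +  KtsHubExit   [OPEN HUB: S4E/ExitContract `k4e_exit`, 222]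
          KtsHubExit    <-  KtsHubS3 (Cor 3.4: 172;  L3.1: 169)  +  k4e_core2 (S4E/CoreTmp)  +  NORM (k2n_norm_*, k2n_lift_*)  +  `KpSam.Guard`, first clause
So Secs 4.2-4.5 rest on exactly THREE statements which are not yet cut into leaves: `K4bHubPre`, `KtsHubExit`, `KtsHubS3`.
THE INTERFACE 230 -> 222 is the record `KtsTimeIn s p m c σ η Z par` below; `kts_tsys_in` PROVES it for `Z = k4dTSys ..`, `par = Sigma.fst` from the conclusion of `k4d_time_core`.

ORDER OF CONSTANTS IN THE UPGRADE.   `v, p`  |  `κ = κ(v, p)` (menu condition `σ ≤ κ c`; time: `κ ≤ p.k ε / (C k)`, `ε = ε(p.d)` of Cor 3.4, `k` of `k4e_core`; strips: `k4dKap p`)  |  the samples `R, s`  |  `KpCandHyp`  |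
the scenario `(smax, c, σ)` and the covered fraction `η` (S4D)  |  the tolerance `τ = τ(p, smax, c, σ, η)`  |  ONE sample `s n` with `(s n).Ok p τ`  |  an output atlas excluded by `(s n).Guard p`.

SLACKS AT THE HAND-OVERS (checked by hand, 20:40Z).   Only FOUR fields of `KpSam.Atl` see ACTUAL slacks: `geo`, `known` (`Ks = (K_path log N₀)^n`), `tmp` (`N₀^{Mg}`), `mass` (`1 / log N₀`).
* strips (`k4d_strip_atl`): `Geo (64 Kp⁴)`, lists `Kp² 9 (8 Kp² + 9)`, from `hs.geo, hs.known, hs.ntv, hs.major` (ACTUAL); the tangent slack `N^τ` enters only in POWER comparisons (buffer `σ + τ ≤ 3c/4`, gain `c/4 - 2τ`).      OK.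
* breadth (`k4f_sample`): `Geo (4 Kp)`, lists `(Kp log N₀)^r 1458 (2 Kp + 6)`, `r + 2 ≤ 1/τ ≤ n`.      OK.
* time: the node `(s.Q m).norm a_m` has `Ntv (3 Kp)` (`k2n_norm_Ntv` from `hs.geo`, `Big Kp`), `k4e_core2` gives `Geo (6 Cc + 3 Kp + 4)`, lists `2 (6 Kp + 5)^j (2 k + 1)^m`, `Tmp ((card + 2) Λ^{3k+3})`; the lift multiplies by `Kp`, `3 Kp`
  (`k2n_lift_Geo`, `k2n_lift_Known` with `a a' = aL` EXACTLY, `k2n_lift_Tmp`).   The analytical slack `Λ = 2 N^{2σ}` of `KtsTimeIn` enters only in `q' ≥ Λ^{-k}` and in `Tmp`.      OK.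
  Time gain: `q ≥ N^{-k_* s - τ} Λ^{-k}` at depth `s + g`, `g ∈ {cε/3, 2cε/3}`; the guard needs `k_* g ≥ 2 k σ + 2 τ + o(1)`: hence `κ ≤ k_* ε / (12 k)`.
* mass: coverage `η` at `G + 1` nodes, half lost, a quarter kept by S4E: `tot η / (8 (G + 1)) ≥ tot / log N₀` by `nodes` as soon as `8 τ ≤ η`.      OK.
-/

set_option autoImplicit false

namespace Claimed.Agent.R252

open MeasureTheory Filter Topology
open Claimed.Agent.R255 (uf)
open scoped ENNReal BigOperators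

noncomputable section

variable {v : KbVer}

/-! ## 1. The interface S4D -> S4E -/

/-- **the candidate system of a time scenario at the node `m`, in PARENT coordinates** (gain `c`, analytical slack `Λ = 2 N^{2σ}`, covered fraction `η`): what S4D delivers and S4E consumes.
`par` = the label of the node which contains the candidate.   (`Z.S x ⊆ (s.Q m).S (par x)` follows from `wf.S_sub`, `A_sub`, `n_eq`, `iv_eq`, `wd_eq` and `hs.tan.path`.) -/
structure KtsTimeIn (s : KpSam v) (p : KpPrm) (m : ℕ) (c σ η : ℝ) (Z : KbSys s.P) (par : Z.C → (s.Q m).C) : Prop where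
  wf : Z.WF
  n_eq : Z.n = (s.Q m).n
  wd_eq : ∀ x, Z.wd x = (s.Q m).wd (par x)
  iv_eq : ∀ x, Z.iv x = (s.Q m).iv (par x)
  A_sub : ∀ x, Z.A x ⊆ (s.Q m).A (par x)
  geo : Z.Geo (2 * s.tan.N ^ (2 * σ)) (s.tan.a m * s.tan.N ^ (-c))
  floor : ∀ x, ENNReal.ofReal ((s.Q m).q * s.tan.N ^ (-(p.d * c))) * (s.Q m).nuC (par x) ≤ ENNReal.ofReal (s.tan.N ^ (2 * σ)) * Z.mC x
  card : (Fintype.card Z.C : ℝ) ≤ Fintype.card (s.Q m).C * s.tan.N ^ (p.d * c + 2 * σ)
  mass : s.P.tot * ENNReal.ofReal (η / (2 * ((s.G : ℝ) + 1))) ≤ Z.mass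

/-! ## 2. The hubs which are still open -/

/-- **what Sec 4.4 consumes from Sec 3** (Cor 3.4: helper172; L3.1: helper169), in the form of `S4E/Contract.lean`: for every dimension cap `d < 1` a tolerance `ε`, constants, and a threshold for `R` -/
def KtsHubS3 : Prop :=
  ∀ (n : ℕ) (d : ℝ), 0 ≤ d → d < 1 → ∃ (ε Crem Cc R₀ : ℝ) (m : ℕ), 0 < ε ∧ ε ≤ 1 / 2 ∧ 1 ≤ Crem ∧ 1 ≤ Cc ∧ K4eRemez n Crem ∧ K4eCode n m Cc ∧
    ∀ R : ℝ, R₀ ≤ R → K4eMatch n d ε R

/-- **the exit of S4E** (helper222, `k4e_exit`): for `σ ≤ κ c` a candidate system at a node of bounded depth is incompatible with a guarded sample of small tolerance -/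
def KtsHubExit : Prop :=
  ∀ (v : KbVer) (p : KpPrm), p.Ok → (v = KbVer.one → p.ell = 0) → ∃ κ : ℝ, 0 < κ ∧ ∀ (smax : ℕ) (c σ η : ℝ), 0 < σ → σ ≤ κ * c → 0 < η →
    ∃ τ₀ : ℝ, 0 < τ₀ ∧ ∀ τ : ℝ, 0 < τ → τ ≤ τ₀ → ∀ s : KpSam v, s.Ok p τ → ∀ m : ℕ, m ≤ s.G → s.dep m ≤ smax →
      ∀ (Z : KbSys s.P) (par : Z.C → (s.Q m).C), ¬ KtsTimeIn s p m c σ η Z par

/-- **the time branch at ONE scale** (same shape as `k4d_strip_core`) -/
def KtsHubTime1 : Prop :=
  ∀ (v : KbVer) (p : KpPrm), p.Ok → (v = KbVer.one → p.ell = 0) → ∃ κ : ℝ, 0 < κ ∧ ∀ (smax : ℕ) (c σ η : ℝ), 0 < σ → σ ≤ κ * c → 0 < η →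
    ∃ τ : ℝ, 0 < τ ∧ ∀ s : KpSam v, s.Ok p τ → ∀ A : K4dAsg (k4dTime (s.tan.k4d p) c σ smax), A.Max (s.tan.N ^ τ) →
      ¬ ENNReal.ofReal η ≤ (s.tan.k4d p).lam0 A.cov

/-! ## 3. The glue -/

/-- the assigned pieces lie in the assignment of the node -/
theorem kts_tp_sub (X : KpTan v) (p : KpPrm) (c σ smax : ℝ) (A : K4dAsg (k4dTime (X.k4d p) c σ smax)) (m : Fin (X.G + 1)) (cc : (X.Q m).C) (n : ℕ) :
    k4dTp X p c σ smax A m cc n ⊆ (X.Q m).A cc := by
  intro l hl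
  have h1 : ((X.Q m).wd cc, l) ∈ k4dTLine (X.k4d p) c ((X.k4d p).N ^ σ) ⟨m, cc⟩ (A.T ⟨m, cc⟩ n) := k4d_free_sub _ _ _ hl
  exact h1.1.2.2.2

/-- the number of candidates -/
theorem kts_tsys_card (X : KpTan v) (p : KpPrm) (c σ smax : ℝ) (A : K4dAsg (k4dTime (X.k4d p) c σ smax)) (m : Fin (X.G + 1)) (M' B : ℝ)
    (h : ∀ cc, (k4dTk X p c σ smax A m cc : ℝ) ≤ B) : (Fintype.card (k4dTSys X p c σ smax A m M').C : ℝ) ≤ Fintype.card (X.Q m).C * B := by
  have e : Fintype.card (k4dTSys X p c σ smax A m M').C = ∑ cc : (X.Q m).C, k4dTk X p c σ smax A m cc := by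
    change Fintype.card (Σ cc : (X.Q m).C, Fin (k4dTk X p c σ smax A m cc)) = _
    rw [Fintype.card_sigma]
    exact Finset.sum_congr rfl fun cc _ => Fintype.card_fin _
  rw [e, Nat.cast_sum]
  calc ∑ cc : (X.Q m).C, (k4dTk X p c σ smax A m cc : ℝ) ≤ ∑ _cc : (X.Q m).C, B := Finset.sum_le_sum fun cc _ => h cc
    _ = Fintype.card (X.Q m).C * B := by rw [Finset.sum_const, nsmul_eq_mul, Finset.card_univ]

/-- **the time branch at one scale** from the exit of S4D and the exit of S4E -/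
theorem kts_time1 (hE : KtsHubExit) : KtsHubTime1 := by
  intro v p hp h1
  obtain ⟨κ, hκ, hexit⟩ := hE v p hp h1
  refine ⟨κ, hκ, fun smax c σ η hσ hσc hη => ?_⟩
  obtain ⟨τ₀, hτ₀, hex⟩ := hexit smax c σ η hσ hσc hη
  obtain ⟨τ₁, hτ₁, hcore⟩ := k4d_time_core v p hp smax c σ η hσ hη
  refine ⟨min τ₀ τ₁, lt_min hτ₀ hτ₁, fun s hs A hA hcov => ?_⟩
  obtain ⟨m, hm, hwf, hgeo, hfl, hcard, hmass⟩ := hcore _ (lt_min hτ₀ hτ₁) (min_le_right _ _) s hs A hA hcov
  refine hex _ (lt_min hτ₀ hτ₁) (min_le_left _ _) s hs m (Nat.lt_succ_iff.1 m.2) hm (k4dTSys s.tan p c σ smax A m (2 * s.tan.N ^ (2 * σ))) Sigma.fst ?_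
  exact ⟨hwf, rfl, fun _ => rfl, fun _ => rfl, fun x => kts_tp_sub s.tan p c σ smax A m x.1 x.2, hgeo, hfl, kts_tsys_card s.tan p c σ smax A m _ _ hcard, hmass⟩

/-- from one scale to the sequence (as `k4d_strip_false`) -/
theorem kts_time_seq (h : KtsHubTime1) : K4dTimeFalse := by
  intro v p hp h1
  obtain ⟨κ, hκ, hcore⟩ := h v p hp h1
  refine ⟨κ, hκ, fun R s hs smax c σ η hσ hσc hη hcov => ?_⟩
  have hη' : 0 < (min η 1).toReal := by
    refine ENNReal.toReal_pos ?_ (ne_top_of_le_ne_top ENNReal.one_ne_top (min_le_right _ _))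
    exact (lt_min (pos_iff_ne_zero.2 hη) one_pos).ne'
  obtain ⟨τ, hτ, hc⟩ := hcore smax c σ _ hσ hσc hη'
  have := Claimed.Agent.R255.uf_neBot
  obtain ⟨n, hn, hOk⟩ := (hcov.and (hs.2 τ hτ)).exists
  have hR := k4d_tan_ok hp hτ hOk.tan
  refine hc (s n) hOk _ (k4d_pick_max hR _ (k4d_time_wf hR _ _ _)) ?_
  rw [ENNReal.ofReal_toReal (ne_top_of_le_ne_top ENNReal.one_ne_top (min_le_right _ _))]
  exact (min_le_left _ _).trans hn

/-- **`prop:candidate-upgrade`** from the exit of S4E -/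
theorem kts_upgrade (hE : KtsHubExit) : KpHubUpgrade := k4d_hub_upgrade (kts_time_seq (kts_time1 hE))

/-- the guarded tangent diagonal -/
theorem kts_sam (h : K4bHubPre) : KpHubSam := k4b_hub_sam h

/-- breadth before sparse selections -/
theorem kts_breadth : KpHubBreadth := k4f_hub

/-- **Secs 4.2-4.5 from the open hubs** -/
theorem kts_hubs (hPre : K4bHubPre) (hE : KtsHubExit) : KpHubSam ∧ KpHubUpgrade ∧ KpHubBreadth :=
  ⟨kts_sam hPre, kts_upgrade hE, kts_breadth⟩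

end

end Claimed.Agent.R252
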