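import Claimed.Agent.R252.Top.S4
import Claimed.Agent.R252.S4E.ExitTop
import Claimed.Agent.R252.S3c.HubsContract
import Claimed.Agent.R252.S4C.BridgeContract
import Claimed.Agent.R252.S4W.Contract
import Claimed.Agent.R252.S4Z.Hub

/-!
# ROW 252 (S0492), unit TOP/S4 (integrator helper221, prefix `kts_` / `Kts`), file 2: THE LINK ABOVE `S4E/ExitTop`.      No own `sorry`.

State of Secs 4.2-4.5 (22:10Z).   AXIOM-CLEAN: `kts_hub_upgrade : KpHubUpgrade`, `k4f_hub : KpHubBreadth` (units S3a, S3c, S3m, S4B, S4D, S4E, S4F closed).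
    KpHubUpgrade  <-  kts_upgrade  <-  kts_time_seq  <-  kts_time1 (k4d_time_core, 230)  <-  KtsHubExit  <-  k4e_hub_exit (222)  <-  KtsHubS3  <-  kts_hub_s3 (k3c_K4eRemez, k3c_K4eCode, k3c_K4eMatch: 172).
    KpHubSam  <-  kts_hub_sam  <-  k4c_hub_sam (S4C/BridgeContract, 294: bridge BR-*, preparation PREP-*, guard `k4c_guard_back` at ONE scale)  <-  K4cHubWin  <-  kts_win  <-  K4wHubWin  <-  k4w_hub_win (S4W/Contract, 79)
              <-  `K4wHubFr` (frames for `0 < ell`) = `k4z_hub_fr` (S4Z/Hub, 269 + 15)   and   the ONE hub which is not yet a theorem:   `K4wHubInfo` (entropy window: S4W/Info, 294).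
`K4bHubPre` (S4B/SamContract) is NOT on this route any more (294 proves the guard at one scale); the files Cut, ChgSeq of S4 were removed (file budget).
`Top/Final.lean` (helper40): replace `hPre : K4bHubPre` by `hI : K4wHubInfo` and `k4b_hub_sam hPre` by `kts_hub_sam1 hI`.
-/

set_option autoImplicit false

namespace Claimed.Agent.R252

/-- **the Sec 3 hub** from the three hubs of helper172 -/
theorem kts_hub_s3 : KtsHubS3 := by
  intro n d _ hd
  obtain ⟨Crem, h1, hrem⟩ := k3c_K4eRemez n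
  obtain ⟨m, Cc, h2, hcode⟩ := k3c_K4eCode n
  obtain ⟨ε₀, hε₀, R₀, hmatch⟩ := k3c_K4eMatch n d hd
  exact ⟨min ε₀ (1 / 2), Crem, Cc, R₀, m, lt_min hε₀ (by norm_num), min_le_right _ _, h1, h2, hrem, hcode,
    fun R hR => hmatch d le_rfl _ (lt_min hε₀ (by norm_num)) (min_le_left _ _) R hR⟩

/-- `KpHubUpgrade` from the Sec 3 hub -/
theorem kts_upgrade_s3 (hS3 : KtsHubS3) : KpHubUpgrade := kts_upgrade (k4e_hub_exit hS3)

/-- **`prop:candidate-upgrade`** (down to leaves) -/
theorem kts_hub_upgrade : KpHubUpgrade := kts_upgrade_s3 kts_hub_s3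

/-- the exit of S4W in the form consumed by S4C -/
theorem kts_win (h : K4wHubWin) : K4cHubWin := by
  intro v S η τ p g hη hp hpS h1 hc hτ hτ1 hg
  obtain ⟨δ, W, h2, h3, h4, h5⟩ := h v S η τ p g hη hp hpS h1 hc hτ hτ1 hg
  exact ⟨δ, W, h2, h3, h4, h5.wd_up, h5.nestS⟩

/-- **the guarded tangent diagonal** from the two hubs of S4W -/
theorem kts_hub_sam (hFr : K4wHubFr) (hI : K4wHubInfo) : KpHubSam :=
  fun v S η p hη hp hpS h1 hc => k4c_hub_sam (kts_win (k4w_hub_win hFr hI)) v S η p hη hp hpS h1 hc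

/-- **the guarded tangent diagonal** from the entropy window -/
theorem kts_hub_sam1 (hI : K4wHubInfo) : KpHubSam := kts_hub_sam k4z_hub_fr hI

/-- **Secs 4.2-4.5 from the two hubs of S4W** -/
theorem kts_all2 (hFr : K4wHubFr) (hI : K4wHubInfo) : KpHubSam ∧ KpHubUpgrade ∧ KpHubBreadth := ⟨kts_hub_sam hFr hI, kts_hub_upgrade, kts_breadth⟩

/-- **the three hubs of `kp_tangent` from the remaining statement** -/
theorem kts_all (hPre : K4bHubPre) : KpHubSam ∧ KpHubUpgrade ∧ KpHubBreadth := kts_hubs hPre (k4e_hub_exit kts_hub_s3)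

end Claimed.Agent.R252
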